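import Vale.Agent.P066.Lab.LSW.Defs

/-!
# [LSW] Antisymmetrisation
-/

set_option autoImplicit false
set_option linter.unusedSectionVars false

open Finset MvPolynomial

namespace Vale.Agent.P066.Lab.LSW

open Vale.Agent.P066.Lab
open Vale.Agent.P066.Theta.H422 (Alt TP mem_TP mem_Alt)

noncomputable section

variable {n : ℕ}

section Group

variable {S S' : Type} [Fintype S] [DecidableEq S] [Fintype S'] [DecidableEq S']

/-- the sign of a permutation as a rational number -/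
def sg (σ : Equiv.Perm S) : ℚ := ((Equiv.Perm.sign σ : ℤ) : ℚ)

theorem sg_one : sg (1 : Equiv.Perm S) = 1 := by simp [sg]

theorem sg_mul (σ τ : Equiv.Perm S) : sg (σ * τ) = sg σ * sg τ := by
  simp [sg, Equiv.Perm.sign_mul]

theorem sg_mul_self (σ : Equiv.Perm S) : sg σ * sg σ = 1 := by
  unfold sg
  rcases Int.units_eq_one_or (Equiv.Perm.sign σ) with h | h <;> rw [h] <;> norm_num

theorem sg_inv (σ : Equiv.Perm S) : sg σ⁻¹ = sg σ := by
  simp [sg, Equiv.Perm.sign_inv]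

theorem sg_ne_zero (σ : Equiv.Perm S) : sg σ ≠ 0 := fun h => by
  have := sg_mul_self σ
  rw [h] at this
  norm_num at this

theorem one_mem_TP (ty : S → Fin n) : (1 : Equiv.Perm S) ∈ TP ty := by simp [mem_TP]

theorem mul_mem_TP {ty : S → Fin n} {σ ρ : Equiv.Perm S} (h : σ ∈ TP ty) (h' : ρ ∈ TP ty) :
    σ * ρ ∈ TP ty := by
  rw [mem_TP] at *
  intro s
  rw [Equiv.Perm.mul_apply, h, h']

theorem inv_mem_TP {ty : S → Fin n} {σ : Equiv.Perm S} (h : σ ∈ TP ty) : σ⁻¹ ∈ TP ty := by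
  rw [mem_TP] at *
  intro s
  have h1 := h (σ⁻¹ s)
  rw [show σ (σ⁻¹ s) = s from Equiv.apply_symm_apply σ s] at h1
  exact h1.symm

theorem antis_apply (ty : S → Fin n) (f : MvPolynomial S ℚ) :
    antis ty f = ∑ σ ∈ TP ty, sg σ • rename σ f := by
  simp [antis, sg, LinearMap.sum_apply]

theorem mem_Alt' {ty : S → Fin n} {f : MvPolynomial S ℚ} :
    f ∈ Alt ℚ ty ↔ ∀ σ ∈ TP ty, rename σ f = sg σ • f := by
  rw [mem_Alt]
  exact ⟨fun h σ hσ => h σ ((mem_TP _ _).1 hσ), fun h σ hσ => h σ ((mem_TP _ _).2 hσ)⟩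

theorem rename_rename' {S'' : Type} (f : MvPolynomial S ℚ) (e : S → S') (e' : S' → S'') :
    rename e' (rename e f) = rename (fun s => e' (e s)) f := by
  rw [rename_rename]; rfl

theorem rename_antis (ty : S → Fin n) {ρ : Equiv.Perm S} (hρ : ρ ∈ TP ty)
    (f : MvPolynomial S ℚ) : rename ρ (antis ty f) = sg ρ • antis ty f := by
  rw [antis_apply, map_sum, smul_sum]
  refine sum_nbij' (fun σ => ρ * σ) (fun σ => ρ⁻¹ * σ) ?_ ?_ ?_ ?_ ?_
  · intro σ hσ; exact mul_mem_TP hρ hσ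
  · intro σ hσ; exact mul_mem_TP (inv_mem_TP hρ) hσ
  · intro σ _; simp
  · intro σ _; simp
  · intro σ _
    rw [map_smul, smul_smul, sg_mul, ← mul_assoc, sg_mul_self, one_mul, rename_rename]
    rfl

theorem antis_mem_Alt (ty : S → Fin n) (f : MvPolynomial S ℚ) : antis ty f ∈ Alt ℚ ty :=
  mem_Alt'.2 fun _ hσ => rename_antis ty hσ f

theorem antis_rename (ty : S → Fin n) {ρ : Equiv.Perm S} (hρ : ρ ∈ TP ty)
    (f : MvPolynomial S ℚ) : antis ty (rename ρ f) = sg ρ • antis ty f := by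
  rw [antis_apply, antis_apply, smul_sum]
  refine sum_nbij' (fun σ => σ * ρ) (fun σ => σ * ρ⁻¹) ?_ ?_ ?_ ?_ ?_
  · intro σ hσ; exact mul_mem_TP hσ hρ
  · intro σ hσ; exact mul_mem_TP hσ (inv_mem_TP hρ)
  · intro σ _; simp
  · intro σ _; simp
  · intro σ _
    rw [smul_smul, sg_mul, mul_comm (sg σ), ← mul_assoc, sg_mul_self, one_mul, rename_rename]
    rfl

theorem antis_of_mem_Alt {ty : S → Fin n} {f : MvPolynomial S ℚ} (hf : f ∈ Alt ℚ ty) :
    antis ty f = ((TP ty).card : ℚ) • f := by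
  rw [antis_apply, sum_congr rfl (g := fun _ => f) fun σ hσ => ?_]
  · rw [sum_const, ← Nat.cast_smul_eq_nsmul ℚ]
  · rw [mem_Alt'.1 hf σ hσ, smul_smul, sg_mul_self, one_smul]

theorem card_TP_ne_zero (ty : S → Fin n) : ((TP ty).card : ℚ) ≠ 0 := by
  have : (TP ty).card ≠ 0 := card_ne_zero_of_mem (one_mem_TP ty)
  exact_mod_cast this

theorem eq_of_mem_Alt {ty : S → Fin n} {f : MvPolynomial S ℚ} (hf : f ∈ Alt ℚ ty) :
    f = ((TP ty).card : ℚ)⁻¹ • antis ty f := by
  rw [antis_of_mem_Alt hf, smul_smul, inv_mul_cancel₀ (card_TP_ne_zero ty), one_smul]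

theorem antis_isHomogeneous (ty : S → Fin n) {f : MvPolynomial S ℚ} {m : ℕ}
    (hf : f.IsHomogeneous m) : (antis ty f).IsHomogeneous m := by
  rw [antis_apply, ← mem_homogeneousSubmodule]
  refine Submodule.sum_mem _ fun σ _ => Submodule.smul_mem _ _ ?_
  rw [mem_homogeneousSubmodule]
  exact hf.rename_isHomogeneous

theorem antis_mem {ty : S → Fin n} {V : Submodule ℚ (MvPolynomial S ℚ)}
    (hV : ∀ σ ∈ TP ty, ∀ f ∈ V, rename σ f ∈ V) {f : MvPolynomial S ℚ} (hf : f ∈ V) :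
    antis ty f ∈ V := by
  rw [antis_apply]
  exact Submodule.sum_mem _ fun σ hσ => Submodule.smul_mem _ _ (hV σ hσ f hf)

end Group

section Bijections

variable {S S' S'' : Type}

theorem TB.trans {ty'' : S'' → Fin n} {ty' : S' → Fin n} {ty : S → Fin n} {e' : S'' ≃ S'}
    {e : S' ≃ S} (h' : TB ty'' ty' e') (h : TB ty' ty e) : TB ty'' ty (e'.trans e) := fun s => by
  rw [Equiv.trans_apply, h, h']

theorem TB.symm {ty' : S' → Fin n} {ty : S → Fin n} {e : S' ≃ S} (h : TB ty' ty e) :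
    TB ty ty' e.symm := fun s => by
  rw [← h (e.symm s), Equiv.apply_symm_apply]

theorem TB.refl (ty : S → Fin n) : TB ty ty (Equiv.refl S) := fun _ => rfl

theorem TB.comp {ty' : S' → Fin n} {ty : S → Fin n} {e : S' ≃ S} (h : TB ty' ty e) :
    ty ∘ e = ty' := funext h

theorem TB.aT_eq {ty' : S' → Fin n} {ty : S → Fin n} {e : S' ≃ S} (h : TB ty' ty e)
    (a : Fin n → Fin n → ℕ) (s t : S') : aT a ty' s t = aT a ty (e s) (e t) := by
  simp only [aT, h s, h t]

theorem TB.tT_eq {ty' : S' → Fin n} {ty : S → Fin n} {e : S' ≃ S} (h : TB ty' ty e)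
    (θ : Fin n → ℤ) (s : S') : tT θ ty' s = tT θ ty (e s) := by
  simp only [tT, h s]

theorem tb_of_mem_TP [Fintype S] [DecidableEq S] {ty : S → Fin n} {σ : Equiv.Perm S}
    (h : σ ∈ TP ty) : TB ty ty σ := (mem_TP _ _).1 h

variable [Fintype S] [DecidableEq S] [Fintype S'] [DecidableEq S']

/-- conjugation of the antisymmetriser by a type preserving bijection -/
theorem antis_rename_equiv {ty' : S' → Fin n} {ty : S → Fin n} {e : S' ≃ S} (h : TB ty' ty e)
    (f : MvPolynomial S' ℚ) : antis ty (rename e f) = rename e (antis ty' f) := by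
  rw [antis_apply, antis_apply, map_sum]
  refine sum_nbij' (fun σ => (e.trans σ).trans e.symm) (fun σ => (e.symm.trans σ).trans e)
    ?_ ?_ ?_ ?_ ?_
  · intro σ hσ
    rw [mem_TP] at hσ ⊢
    intro s
    rw [Equiv.trans_apply, Equiv.trans_apply, h.symm, hσ, h]
  · intro σ hσ
    rw [mem_TP] at hσ ⊢
    intro s
    rw [Equiv.trans_apply, Equiv.trans_apply, h, hσ, h.symm]
  · intro σ _; ext s; simp
  · intro σ _; ext s; simp
  · intro σ _
    rw [map_smul, rename_rename, rename_rename]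
    congr 1
    · unfold sg
      rw [Equiv.Perm.sign_trans_trans_symm]
    · congr 2
      funext s
      simp

/-- two bijections differ by a sign after antisymmetrisation -/
theorem antis_change {ty' : S' → Fin n} {ty : S → Fin n} {e e' : S' ≃ S} (h : TB ty' ty e)
    (h' : TB ty' ty e') (f : MvPolynomial S' ℚ) :
    antis ty (rename e' f) = sg (e.symm.trans e') • antis ty (rename e f) := by
  have h1 : e.symm.trans e' ∈ TP ty := (mem_TP _ _).2 (h.symm.trans h')
  have h2 : rename e' f = rename (e.symm.trans e') (rename e f) := by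
    rw [rename_rename]
    congr 2
    funext s
    simp
  rw [h2, antis_rename ty h1]

theorem rename_mem_Alt {ty' : S' → Fin n} {ty : S → Fin n} {e : S' ≃ S} (h : TB ty' ty e)
    {f : MvPolynomial S' ℚ} (hf : f ∈ Alt ℚ ty') : rename e f ∈ Alt ℚ ty := by
  rw [eq_of_mem_Alt hf, map_smul, ← antis_rename_equiv h]
  exact Submodule.smul_mem _ _ (antis_mem_Alt _ _)

/-- an alternating polynomial is transported by two bijections up to a sign -/
theorem rename_alt_change {ty' : S' → Fin n} {ty : S → Fin n} {e e' : S' ≃ S} (h : TB ty' ty e)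
    (h' : TB ty' ty e') {f : MvPolynomial S' ℚ} (hf : f ∈ Alt ℚ ty') :
    rename e' f = sg (e.symm.trans e') • rename e f := by
  have h1 : e.symm.trans e' ∈ TP ty := (mem_TP _ _).2 (h.symm.trans h')
  rw [← mem_Alt'.1 (rename_mem_Alt h hf) _ h1, rename_rename]
  congr 2
  funext s
  simp

variable {a : Fin n → Fin n → ℕ} {θ : Fin n → ℤ}

theorem univ_image_equiv (e : S' ≃ S) : (univ : Finset S').image e = univ := by
  ext s; simp only [mem_image, mem_univ, true_and, iff_true]; exact ⟨e.symm s, by simp⟩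

theorem rename_mem_J0 {ty' : S' → Fin n} {ty : S → Fin n} {e : S' ≃ S} (h : TB ty' ty e)
    (f : MvPolynomial S' ℚ) :
    rename e f ∈ J0 ℚ (aT a ty) (tT θ ty) univ ↔ f ∈ J0 ℚ (aT a ty') (tT θ ty') univ := by
  rw [← univ_image_equiv e]
  exact mem_J0_iff ℚ e.injective (h.aT_eq a) (h.tT_eq θ) univ f

theorem rename_fil {ty' : S' → Fin n} {ty : S → Fin n} {e : S' ≃ S} (h : TB ty' ty e) (N : ℤ)
    (f : MvPolynomial S' ℚ) :
    Fil ℚ (aT a ty) (tT θ ty) N (rename e f) ↔ Fil ℚ (aT a ty') (tT θ ty') N f :=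
  Fil_equiv ℚ e (h.aT_eq a) (h.tT_eq θ) N f

/-- `Fil N` as a subspace -/
def filS (k : Type) [Field k] (a' : S → S → ℕ) (θ' : S → ℤ) (N : ℤ) :
    Submodule k (MvPolynomial S k) where
  carrier := {f | Fil k a' θ' N f}
  add_mem' hf hg := fun m hm => (hf m hm).add (hg m hm)
  zero_mem' := fun _ _ => Lev.of_mem _ (zero_mem _)
  smul_mem' r _ hf := fun m hm => by
    rw [smul_eq_C_mul]
    exact (hf m hm).C_mul r

theorem mem_filS {a' : S → S → ℕ} {θ' : S → ℤ} {N : ℤ} {f : MvPolynomial S ℚ} :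
    f ∈ filS ℚ a' θ' N ↔ Fil ℚ a' θ' N f := Iff.rfl

theorem Fil_mono' {a' : S → S → ℕ} {θ' : S → ℤ} {N N' : ℤ} (h : N ≤ N') {f : MvPolynomial S ℚ}
    (hf : Fil ℚ a' θ' N f) : Fil ℚ a' θ' N' f := fun m hm => (hf m hm).mono h

theorem antis_fil {ty : S → Fin n} {N : ℤ} {f : MvPolynomial S ℚ}
    (hf : Fil ℚ (aT a ty) (tT θ ty) N f) : Fil ℚ (aT a ty) (tT θ ty) N (antis ty f) :=
  antis_mem (V := filS ℚ (aT a ty) (tT θ ty) N)
    (fun _ hσ g hg => (rename_fil (tb_of_mem_TP hσ) N g).2 hg) hf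

theorem antis_J0 {ty : S → Fin n} {f : MvPolynomial S ℚ}
    (hf : f ∈ J0 ℚ (aT a ty) (tT θ ty) univ) :
    antis ty f ∈ J0 ℚ (aT a ty) (tT θ ty) univ :=
  antis_mem (V := (J0 ℚ (aT a ty) (tT θ ty) univ).restrictScalars ℚ)
    (fun _ hσ g hg => (rename_mem_J0 (tb_of_mem_TP hσ) g).2 hg) hf

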