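import Vale.Agent.P066.Lab.QT0
import Vale.Agent.P066.Lab.EQ
import Vale.Agent.P066.Lab.KunGc
import Vale.Agent.P066.Lab.H269.S3

/-!
# [LSW] The counting theorem `LSout` by words: definitions and exact statements

Letters `(y, m)`: `y` in a homogeneous basis of the alternating part of `V_d` (modulo `J0`), `m : ℕ`.
A word is a family `w : Fin r → Ltr`; its particle set is `SW (cls w) = Σ j, Pt (cls w j)` with the
colouring `cW` = first component; `PW w = KC * (∏ v_y (block j)) * ∏ uk_j ^ m_j` and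
`gW w e` = antisymmetrisation of `rename e (PW w)`, for a type preserving bijection
`e : SW (cls w) ≃ Pt d`.
-/

set_option autoImplicit false

open Finset MvPolynomial

namespace Vale.Agent.P066.Lab.LSW

open Vale.Agent.P066.Lab
open Vale.Agent.P066.Theta.H422 (Alt TP mem_TP mem_Alt)

noncomputable section

variable {n : ℕ}

/-- arrows pulled back to a typed particle set; `aT a Sigma.fst = aP a d` by `rfl` -/
abbrev aT (a : Fin n → Fin n → ℕ) {S : Type} (ty : S → Fin n) : S → S → ℕ :=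
  fun s t => a (ty s) (ty t)

/-- stability pulled back to a typed particle set; `tT θ Sigma.fst = θP θ d` by `rfl` -/
abbrev tT (θ : Fin n → ℤ) {S : Type} (ty : S → Fin n) : S → ℤ := fun s => θ (ty s)

/-- A homogeneous basis `v y`, `y : Y d`, of the alternating part of `V_d` modulo `J0`,
`d ≠ 0` of weight zero. -/
structure Letters (a : Fin n → Fin n → ℕ) (θ : Fin n → ℤ) where
  Y : (Fin n →₀ ℕ) → Type
  v : ∀ {d : Fin n →₀ ℕ}, Y d → MvPolynomial (Pt d) ℚ
  dg : ∀ {d : Fin n →₀ ℕ}, Y d → ℕ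
  fin : ∀ d, Finite (Y d)
  ne : ∀ d, Y d → d ≠ 0
  wt : ∀ d, Y d → Theta.wt θ d = 0
  alt : ∀ d (y : Y d), v y ∈ Alt ℚ (Sigma.fst : Pt d → Fin n)
  hom : ∀ d (y : Y d), (v y).IsHomogeneous (dg y)
  fil : ∀ d (y : Y d), Fil ℚ (aP a d) (θP θ d) 1 (v y)
  ind : ∀ d, LinearIndependent ℚ fun y : Y d =>
    Ideal.Quotient.mk (J0 ℚ (aP a d) (θP θ d) univ) (v y)
  span : ∀ d, d ≠ 0 → Theta.wt θ d = 0 → ∀ f ∈ Alt ℚ (Sigma.fst : Pt d → Fin n),
    Fil ℚ (aP a d) (θP θ d) 1 f →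
      ∃ g ∈ Submodule.span ℚ (Set.range fun y : Y d => v y),
        f - g ∈ J0 ℚ (aP a d) (θP θ d) univ

variable {a : Fin n → Fin n → ℕ} {θ : Fin n → ℤ} (L : Letters a θ)

/-- letters `(d, y, m)` -/
def Ltr : Type := Σ d : Fin n →₀ ℕ, L.Y d × ℕ

variable {L}

/-- class of a letter -/
def cls (l : Ltr L) : Fin n →₀ ℕ := l.1

/-- the basis element of a letter -/
def vl (l : Ltr L) : MvPolynomial (Pt (cls l)) ℚ := L.v l.2.1

/-- the exponent of a letter -/
def ml (l : Ltr L) : ℕ := l.2.2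

/-- parity of a class: `|d| + a(d,d)` -/
def Odd' (a : Fin n → Fin n → ℕ) (d : Fin n →₀ ℕ) : Prop := Odd (Theta.deg d + arD a d d)

variable {r : ℕ}

/-- the particle set of a family of classes -/
abbrev SW (D : Fin r → Fin n →₀ ℕ) : Type := Σ j : Fin r, Pt (D j)

/-- type of a particle -/
abbrev tyW (D : Fin r → Fin n →₀ ℕ) : SW D → Fin n := fun s => s.2.1

/-- the colouring by the blocks -/
def cW (D : Fin r → Fin n →₀ ℕ) : SW D → ℕ := fun s => (s.1 : ℕ)

/-- the classes of the letters of a word -/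
abbrev clsW (w : Fin r → Ltr L) : Fin r → Fin n →₀ ℕ := fun j => cls (w j)

/-- the exponents of a word as a multiindex in the colours `0, …, r-1` -/
def αW (w : Fin r → Ltr L) : ℕ →₀ ℕ := ∑ j : Fin r, Finsupp.single (j : ℕ) (ml (w j))

/-- `∏_j v_{y_j}(block j)` -/
def vW (w : Fin r → Ltr L) : MvPolynomial (SW (clsW w)) ℚ :=
  ∏ j : Fin r, rename (Sigma.mk j) (vl (w j))

/-- `P_w = K · ∏ v_{y_j} · ∏ uk_j ^ m_j` -/
def PW (w : Fin r → Ltr L) : MvPolynomial (SW (clsW w)) ℚ :=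
  KC ℚ (aT a (tyW (clsW w))) (cW (clsW w)) * (vW w * um ℚ (cW (clsW w)) (αW w))

/-- the level of a word -/
def lev (w : Fin r → Ltr L) : ℤ := 2 * ∑ j : Fin r, (ml (w j) : ℤ) + r

/-- type preserving bijections -/
def TB {S S' : Type} (ty' : S' → Fin n) (ty : S → Fin n) (e : S' ≃ S) : Prop :=
  ∀ s, ty (e s) = ty' s

/-- the antisymmetrisation (not divided by the order of the group) -/
def antis {S : Type} [Fintype S] [DecidableEq S] (ty : S → Fin n) :
    MvPolynomial S ℚ →ₗ[ℚ] MvPolynomial S ℚ :=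
  ∑ σ ∈ TP ty, ((Equiv.Perm.sign σ : ℤ) : ℚ) • (rename σ : MvPolynomial S ℚ →ₐ[ℚ] _).toLinearMap

/-- the element of a word, for a bijection `e` of its particle set with `Pt d` -/
def gW {d : Fin n →₀ ℕ} (w : Fin r → Ltr L) (e : SW (clsW w) ≃ Pt d) : MvPolynomial (Pt d) ℚ :=
  antis (Sigma.fst : Pt d → Fin n) (rename e (PW w))

/-- the multiset of the letters of a word -/
def msW (w : Fin r → Ltr L) : Multiset (Ltr L) := (univ : Finset (Fin r)).val.map w

/-- no odd letter is repeated -/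
def Good (w : Fin r → Ltr L) : Prop := ∀ i j, i ≠ j → w i = w j → ¬ Odd' a (cls (w i))

/-! ### Exact statements -/

/-- [W0] Letters exist (finiteness by FIN). -/
def W0 : Prop := ∀ (n : ℕ) (a : Fin n → Fin n → ℕ) (θ : Fin n → ℤ), SymD a θ →
  Nonempty (Letters a θ)

/-- [W1] Words span. -/
def W1 : Prop := ∀ (n : ℕ) (a : Fin n → Fin n → ℕ) (θ : Fin n → ℤ), SymD a θ →
  ∀ (L : Letters a θ) (d : Fin n →₀ ℕ), Theta.wt θ d = 0 → ∀ N : ℤ,
    ∀ f ∈ Alt ℚ (Sigma.fst : Pt d → Fin n), Fil ℚ (aP a d) (θP θ d) N f →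
      f ∈ Submodule.span ℚ {g | ∃ (r : ℕ) (w : Fin r → Ltr L) (e : SW (clsW w) ≃ Pt d),
          TB (tyW (clsW w)) Sigma.fst e ∧ lev w ≤ N ∧ g = gW w e} ⊔
        (J0 ℚ (aP a d) (θP θ d) univ).restrictScalars ℚ

/-- [W2a] Changing the order of the letters: a sign, modulo lower level. (Labelled statement.) -/
def W2a : Prop := ∀ (n : ℕ) (a : Fin n → Fin n → ℕ) (θ : Fin n → ℤ), SymD a θ →
  ∀ (L : Letters a θ) (r : ℕ) (w : Fin r → Ltr L) (τ : Equiv.Perm (Fin r)),
    ∃ ε : ℤˣ, Fil ℚ (aT a (tyW (clsW w))) (tT θ (tyW (clsW w))) (lev w - 1)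
        (rename (Equiv.sigmaCongrLeft (β := fun j => Pt (clsW w j)) τ) (PW (w ∘ τ))
          - ((ε : ℤ) : ℚ) • PW w)

/-- [W2b] A word with a repeated odd letter has lower level. -/
def W2b : Prop := ∀ (n : ℕ) (a : Fin n → Fin n → ℕ) (θ : Fin n → ℤ), SymD a θ →
  ∀ (L : Letters a θ) (d : Fin n →₀ ℕ) (r : ℕ) (w : Fin r → Ltr L) (e : SW (clsW w) ≃ Pt d),
    TB (tyW (clsW w)) Sigma.fst e → ¬ Good w →
      Fil ℚ (aP a d) (θP θ d) (lev w - 1) (gW w e)

/-- [W3] Words with different multisets of letters and without repeated odd letters are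
independent. -/
def W3 : Prop := ∀ (n : ℕ) (a : Fin n → Fin n → ℕ) (θ : Fin n → ℤ), SymD a θ →
  ∀ (L : Letters a θ) (d : Fin n →₀ ℕ) (ι : Type) (r : ι → ℕ) (w : ∀ i, Fin (r i) → Ltr L)
    (e : ∀ i, SW (clsW (w i)) ≃ Pt d),
    (∀ i, TB (tyW (clsW (w i))) Sigma.fst (e i)) → (∀ i, Good (w i)) →
    (Function.Injective fun i => msW (w i)) →
      LinearIndependent ℚ fun i => Ideal.Quotient.mk (J0 ℚ (aP a d) (θP θ d) univ)
        (gW (w i) (e i))

/-- [W4] Final assembly. -/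
def W4 : Prop := W0 → W1 → W2a → W2b → W3 → LSout

end

end Vale.Agent.P066.Lab.LSW
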