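import Vale.Agent.P066.Lab.LSW.KW
import Vale.Agent.P066.Lab.H66.Blocks

/-!
# [LSW] W2a and W2b
-/

set_option autoImplicit false

open Finset MvPolynomial

namespace Vale.Agent.P066.Lab.LSW

open Vale.Agent.P066.Lab
open Vale.Agent.P066.Theta.H422 (Alt TP mem_TP mem_Alt)

noncomputable section

variable {n : ℕ} {a : Fin n → Fin n → ℕ} {θ : Fin n → ℤ} {r : ℕ} {L : Letters a θ}

/-- The number of arrows between the blocks whose order is changed by `τ`. -/
def invW (w : Fin r → Ltr L) (σ : ℕ → ℕ) : ℕ :=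
  invN (aT a (tyW (clsW w))) σ (cW (clsW w))

/-- (T2) for words: `K_{σ ∘ c_w} · v_w · u^α` against `P_w`. -/
theorem fil_KC_word (hs : SymD a θ) (w : Fin r → Ltr L)
    (hG : Gc ℚ (aT a (tyW (clsW w))) (tT θ (tyW (clsW w))) (cW (clsW w)) (vW w))
    {σ : ℕ → ℕ} (hσ : Function.Injective σ) :
    Fil ℚ (aT a (tyW (clsW w))) (tT θ (tyW (clsW w))) (lev w - 1)
      (KC ℚ (aT a (tyW (clsW w))) (σ ∘ cW (clsW w)) * (vW w * um ℚ (cW (clsW w)) (αW w)) -
        (-1) ^ invW w σ * PW w) := by
  have h := Fil_KC_recolour (k := ℚ) (SymZ_typed hs (tyW (clsW w))) hσ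
    (Zc_cW (θ := θ) (clsW w) fun j => cls_wt (w j)) hG (αW_support w)
  rw [lev_eq]
  exact h

/-- [W2a] with the explicit sign. -/
theorem w2a_explicit (hs : SymD a θ) (w : Fin r → Ltr L)
    (hG : Gc ℚ (aT a (tyW (clsW w))) (tT θ (tyW (clsW w))) (cW (clsW w)) (vW w))
    (τ : Equiv.Perm (Fin r)) :
    Fil ℚ (aT a (tyW (clsW w))) (tT θ (tyW (clsW w))) (lev w - 1)
      (rename (eτ w τ) (PW (w ∘ τ)) - (-1) ^ invW w (exN τ.symm) * PW w) := by
  rw [rename_PW]
  exact fil_KC_word hs w hG (exN_injective _)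

theorem neg_one_pow_mul {S : Type} (N : ℕ) (f : MvPolynomial S ℚ) :
    (-1) ^ N * f = ((((-1 : ℤˣ) ^ N : ℤˣ) : ℤ) : ℚ) • f := by
  rcases Nat.even_or_odd N with h | h
  · rw [h.neg_one_pow, h.neg_one_pow]
    simp
  · rw [h.neg_one_pow, h.neg_one_pow]
    simp

/-- [W2a] -/
theorem w2a : W2a := by
  intro n a θ hs L r w τ
  refine ⟨(-1) ^ invW w (exN τ.symm), ?_⟩
  rw [← neg_one_pow_mul]
  exact w2a_explicit hs w (Gc_vW hs w) τ

/-! ### the sign of the exchange of two blocks of equal class -/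

theorem arD_blk (D : Fin r → Fin n →₀ ℕ) (x y : Fin r) :
    ∑ p ∈ blk (cW D) (x : ℕ) ×ˢ blk (cW D) (y : ℕ), aT a (tyW D) p.1 p.2 = arD a (D x) (D y) := by
  have h := ar_typed (a := a) (tyW D) (blk (cW D) (x : ℕ)) (blk (cW D) (y : ℕ))
  rw [clT_blk, clT_blk] at h
  unfold ar at h
  rw [sum_product]
  exact_mod_cast h

theorem invN_cW (D : Fin r → Fin n →₀ ℕ) (τ : Equiv.Perm (Fin r)) :
    invN (aT a (tyW D)) (exN τ) (cW D) =
      ∑ q ∈ univ.filter (fun q : Fin r × Fin r => q.1 < q.2 ∧ τ q.2 < τ q.1),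
        arD a (D q.1) (D q.2) := by
  unfold invN
  rw [← sum_fiberwise_of_maps_to (s := univ.filter (fun p : SW D × SW D =>
      cW D p.1 < cW D p.2 ∧ exN τ (cW D p.2) < exN τ (cW D p.1)))
    (t := univ.filter (fun q : Fin r × Fin r => q.1 < q.2 ∧ τ q.2 < τ q.1))
    (g := fun p : SW D × SW D => (p.1.1, p.2.1))]
  · refine sum_congr rfl fun q hq => ?_
    rw [← arD_blk]
    refine sum_congr ?_ fun _ _ => rfl
    ext p
    simp only [mem_filter, mem_univ, true_and, mem_product, mem_blk, Prod.ext_iff] at hq ⊢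
    simp only [cW, exN_val, Fin.val_inj]
    constructor
    · rintro ⟨-, h1, h2⟩
      exact ⟨h1, h2⟩
    · rintro ⟨h1, h2⟩
      rw [h1, h2]
      exact ⟨hq, rfl, rfl⟩
  · intro p hp
    simp only [mem_filter, mem_univ, true_and, cW, exN_val] at hp ⊢
    exact hp

theorem even_sum_of_involution {ι : Type} [DecidableEq ι] (t : Finset ι) (f : ι → ℕ) (g : ι → ι)
    (h1 : ∀ x ∈ t, f (g x) = f x) (h2 : ∀ x ∈ t, g x ∈ t) (h3 : ∀ x ∈ t, g (g x) = x)
    (h4 : ∀ x ∈ t, g x ≠ x) : Even (∑ x ∈ t, f x) := by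
  rw [← ZMod.natCast_eq_zero_iff_even]
  push_cast
  refine sum_involution (fun x _ => g x) ?_ ?_ (fun x hx => h2 x hx) (fun x hx => h3 x hx)
  · intro x hx
    rw [h1 x hx]
    exact CharTwo.add_self_eq_zero _
  · intro x hx _
    exact h4 x hx

/-- (SG2) the exchange of two blocks of equal class -/
theorem invN_swap (hs : SymD a θ) (D : Fin r → Fin n →₀ ℕ) (hD : ∀ j, Theta.wt θ (D j) = 0)
    {i j : Fin r} (hij : i < j) (hDij : D i = D j) :
    ∃ m, invN (aT a (tyW D)) (exN (Equiv.swap i j)) (cW D) = arD a (D i) (D i) + 2 * m := by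
  rw [invN_cW]
  set T := univ.filter (fun q : Fin r × Fin r => q.1 < q.2 ∧
    Equiv.swap i j q.2 < Equiv.swap i j q.1) with hT
  have hmem : (i, j) ∈ T := by
    rw [hT, mem_filter]
    simpa using hij
  have hinv : ∀ x : Fin r, Equiv.swap i j (Equiv.swap i j x) = x := fun x =>
    Equiv.swap_apply_self i j x
  have hDs : ∀ x : Fin r, D (Equiv.swap i j x) = D x := by
    intro x
    by_cases h1 : x = i
    · subst h1; rw [Equiv.swap_apply_left, hDij]
    · by_cases h2 : x = j
      · subst h2; rw [Equiv.swap_apply_right, hDij]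
      · rw [Equiv.swap_apply_of_ne_of_ne h1 h2]
  have hev : Even (∑ q ∈ T.erase (i, j), arD a (D q.1) (D q.2)) := by
    refine even_sum_of_involution _ _ (fun q => (Equiv.swap i j q.2, Equiv.swap i j q.1)) ?_ ?_ ?_ ?_
    · intro q _
      simp only [hDs]
      exact hs _ _ (hD _) (hD _)
    · intro q hq
      rw [mem_erase, hT, mem_filter] at hq ⊢
      refine ⟨?_, mem_univ _, hq.2.2.2, ?_⟩
      · intro h
        apply hq.1
        have h1 := congrArg Prod.fst h
        have h2 := congrArg Prod.snd h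
        simp only at h1 h2
        have h3 : q.2 = j := by rw [← hinv q.2, h1, Equiv.swap_apply_left]
        have h4 : q.1 = i := by rw [← hinv q.1, h2, Equiv.swap_apply_right]
        exact Prod.ext h4 h3
      · simp only [hinv]
        exact hq.2.2.1
    · intro q _
      simp only [hinv]
    · intro q hq h
      rw [mem_erase, hT, mem_filter] at hq
      have h1 := congrArg Prod.fst h
      have h2 := congrArg Prod.snd h
      simp only at h1 h2
      have hne : q.1 ≠ q.2 := ne_of_lt hq.2.2.1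
      have h5 : q.1 = i ∨ q.1 = j := by
        by_contra hc
        push Not at hc
        rw [Equiv.swap_apply_of_ne_of_ne hc.1 hc.2] at h2
        exact hne h2
      rcases h5 with h5 | h5
      · rw [h5, Equiv.swap_apply_left] at h2
        exact hq.1 (Prod.ext h5 h2.symm)
      · rw [h5, Equiv.swap_apply_right] at h2
        have := hq.2.2.1
        rw [h5, ← h2] at this
        exact absurd this (not_lt.2 hij.le)
  obtain ⟨m, hm⟩ := hev
  refine ⟨m, ?_⟩
  rw [← add_sum_erase _ _ hmem, hm]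
  simp only [← hDij]
  ring

/-! ### a repeated letter -/

theorem cast_fst {l l' : Ltr L} (h : l = l') (p : Pt (cls l)) :
    (cast (congrArg (fun l => Pt (cls l)) h) p).1 = p.1 := by
  subst h
  rfl

theorem rename_cast {l l' : Ltr L} (h : l = l') {S : Type} (f : Pt (cls l') → S) :
    rename (fun p => f (cast (congrArg (fun l => Pt (cls l)) h) p)) (vl l) = rename f (vl l') := by
  subst h
  rfl

/-- The exchange of the blocks of two equal letters. -/
theorem exists_swap_blocks (w : Fin r → Ltr L) {i j : Fin r} (hij : i ≠ j) (h : w i = w j) :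
    ∃ g : Equiv.Perm (SW (clsW w)), TB (tyW (clsW w)) (tyW (clsW w)) g ∧
      sg g = (-1) ^ Theta.deg (cls (w i)) ∧
      (∀ s, cW (clsW w) s = exN (Equiv.swap i j) (cW (clsW w) (g s))) ∧
      rename g (vW w) = vW w := by
  let i1 : Pt (cls (w i)) → SW (clsW w) := fun p => ⟨i, p⟩
  let i2 : Pt (cls (w i)) → SW (clsW w) := fun p =>
    ⟨j, cast (congrArg (fun l => Pt (cls l)) h) p⟩
  have hi1 : Function.Injective i1 := fun p q hpq => by simpa [i1] using hpq
  have hi2 : Function.Injective i2 := fun p q hpq => by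
    have : cast (congrArg (fun l => Pt (cls l)) h) p = cast (congrArg (fun l => Pt (cls l)) h) q := by
      simpa [i2] using hpq
    exact (cast_bijective (congrArg (fun l => Pt (cls l)) h)).1 this
  obtain ⟨g, hg1, hg2, hg3, hg4⟩ := exists_blockSwap i1 i2 hi1 hi2 fun x y hxy =>
    hij (congrArg Sigma.fst hxy)
  -- description of `g`
  have hgi : ∀ p : Pt (cls (w i)), g ⟨i, p⟩ =
      ⟨j, cast (congrArg (fun l => Pt (cls l)) h) p⟩ := fun p => hg1 p
  have hgj : ∀ p : Pt (cls (w j)), g ⟨j, p⟩ =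
      ⟨i, cast (congrArg (fun l => Pt (cls l)) h.symm) p⟩ := by
    intro p
    have := hg2 (cast (congrArg (fun l => Pt (cls l)) h.symm) p)
    simp only [i2, cast_cast, cast_eq] at this
    exact this
  have hgx : ∀ x : Fin r, x ≠ i → x ≠ j → ∀ p : Pt (clsW w x), g ⟨x, p⟩ = ⟨x, p⟩ := by
    intro x hxi hxj p
    refine hg3 _ ?_ ?_
    · intro q hq
      exact hxi (congrArg Sigma.fst hq).symm
    · intro q hq
      exact hxj (congrArg Sigma.fst hq).symm
  refine ⟨g, ?_, ?_, ?_, ?_⟩
  · rintro ⟨x, p⟩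
    by_cases hxi : x = i
    · subst hxi
      rw [hgi]
      exact cast_fst h p
    · by_cases hxj : x = j
      · subst hxj
        rw [hgj]
        exact cast_fst h.symm p
      · rw [hgx x hxi hxj]
  · unfold sg
    rw [hg4]
    have : Fintype.card (Pt (cls (w i))) = Theta.deg (cls (w i)) := by
      rw [Fintype.card_sigma]
      simp [Theta.deg]
    rw [this]
    push_cast
    rfl
  · rintro ⟨x, p⟩
    by_cases hxi : x = i
    · subst hxi
      rw [hgi]
      change (x : ℕ) = exN (Equiv.swap x j) ((j : Fin r) : ℕ)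
      rw [exN_val, Equiv.swap_apply_right]
    · by_cases hxj : x = j
      · subst hxj
        rw [hgj]
        change (x : ℕ) = exN (Equiv.swap i x) ((i : Fin r) : ℕ)
        rw [exN_val, Equiv.swap_apply_left]
      · rw [hgx x hxi hxj]
        change (x : ℕ) = exN (Equiv.swap i j) ((x : Fin r) : ℕ)
        rw [exN_val, Equiv.swap_apply_of_ne_of_ne hxi hxj]
  · unfold vW
    rw [map_prod]
    conv_rhs => rw [← Equiv.prod_comp (Equiv.swap i j)]
    refine prod_congr rfl fun x _ => ?_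
    rw [rename_rename]
    by_cases hxi : x = i
    · subst hxi
      rw [Equiv.swap_apply_left, ← rename_cast h]
      congr 2
      funext p
      exact hgi p
    · by_cases hxj : x = j
      · subst hxj
        rw [Equiv.swap_apply_right, ← rename_cast h.symm]
        congr 2
        funext p
        exact hgj p
      · rw [Equiv.swap_apply_of_ne_of_ne hxi hxj]
        congr 2
        funext p
        exact hgx x hxi hxj p

/-- [W2b], for two equal letters `i < j` of odd class. -/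
theorem w2b_aux (hs : SymD a θ) (w : Fin r → Ltr L)
    (hG : Gc ℚ (aT a (tyW (clsW w))) (tT θ (tyW (clsW w))) (cW (clsW w)) (vW w))
    {i j : Fin r} (hij : i < j) (h : w i = w j) (ho : Odd' a (cls (w i)))
    {d : Fin n →₀ ℕ} (e : SW (clsW w) ≃ Pt d) (he : TB (tyW (clsW w)) Sigma.fst e) :
    Fil ℚ (aP a d) (θP θ d) (lev w - 1) (gW w e) := by
  obtain ⟨g, hgT, hgs, hgc, hgv⟩ := exists_swap_blocks w hij.ne h
  have hcc : cW (clsW w) = (exN (Equiv.swap i j) ∘ cW (clsW w)) ∘ g := funext hgc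
  have hK : rename g (KC ℚ (aT a (tyW (clsW w))) (cW (clsW w))) =
      KC ℚ (aT a (tyW (clsW w))) (exN (Equiv.swap i j) ∘ cW (clsW w)) := by
    conv_lhs => rw [hcc]
    exact KC_equiv ℚ g (hgT.aT_eq a) _
  have hww : w ∘ Equiv.swap i j = w := by
    funext x
    by_cases hxi : x = i
    · subst hxi
      rw [Function.comp_apply, Equiv.swap_apply_left, h]
    · by_cases hxj : x = j
      · subst hxj
        rw [Function.comp_apply, Equiv.swap_apply_right, h]
      · rw [Function.comp_apply, Equiv.swap_apply_of_ne_of_ne hxi hxj]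
  have hα : (αW w).mapDomain (exN (Equiv.swap i j)) = αW w := by
    have := αW_comp w (Equiv.swap i j)
    rw [hww, Equiv.symm_swap] at this
    exact this.symm
  have hU : rename g (um ℚ (cW (clsW w)) (αW w)) = um ℚ (cW (clsW w)) (αW w) := by
    conv_lhs => rw [hcc]
    rw [um_equiv]
    conv_lhs => rw [← hα]
    rw [um_recolour (exN_injective _)]
  have hP : rename g (PW w) = KC ℚ (aT a (tyW (clsW w))) (exN (Equiv.swap i j) ∘ cW (clsW w)) *
      (vW w * um ℚ (cW (clsW w)) (αW w)) := by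
    unfold PW
    rw [map_mul, map_mul, hgv, hU, hK]
  have h1 := fil_KC_word hs w hG (exN_injective (Equiv.swap i j))
  rw [← hP] at h1
  -- the signs
  obtain ⟨m, hm⟩ := invN_swap hs (clsW w) (fun j => cls_wt (w j)) hij (congrArg cls h)
  have hsgn : (-1 : MvPolynomial (SW (clsW w)) ℚ) ^ invW w (exN (Equiv.swap i j)) =
      C (-(sg g)) := by
    unfold invW
    rw [hm, hgs, pow_add, pow_mul]
    have h2 : (-1 : ℚ) ^ arD a (clsW w i) (clsW w i) = -(-1 : ℚ) ^ Theta.deg (cls (w i)) := by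
      unfold Odd' at ho
      rcases Nat.odd_add.1 ho with h3
      rcases Nat.even_or_odd (Theta.deg (cls (w i))) with h4 | h4
      · have h5 : Odd (arD a (clsW w i) (clsW w i)) := by
          rw [← Nat.not_even_iff_odd]
          intro h6
          exact (Nat.not_even_iff_odd.2 (h3.2 h6)) h4
        rw [h4.neg_one_pow, h5.neg_one_pow]
      · rw [h4.neg_one_pow, (h3.1 h4).neg_one_pow, neg_neg]
    rw [← h2]
    simp
  rw [hsgn] at h1
  -- antisymmetrise
  have h2 : Fil ℚ (aT a (tyW (clsW w))) (tT θ (tyW (clsW w))) (lev w - 1)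
      (antis (tyW (clsW w)) (rename g (PW w) - C (-(sg g)) * PW w)) := antis_fil h1
  have h3 : antis (tyW (clsW w)) (rename g (PW w) - C (-(sg g)) * PW w) =
      (2 * sg g) • antis (tyW (clsW w)) (PW w) := by
    rw [map_sub, antis_rename _ ((mem_TP _ _).2 hgT), ← smul_eq_C_mul, map_smul, ← sub_smul]
    congr 1
    ring
  rw [h3] at h2
  have h4 : antis (tyW (clsW w)) (PW w) =
      (2 * sg g)⁻¹ • ((2 * sg g) • antis (tyW (clsW w)) (PW w)) := by
    rw [smul_smul, inv_mul_cancel₀ (mul_ne_zero two_ne_zero (sg_ne_zero g)), one_smul]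
  have h5 : Fil ℚ (aT a (tyW (clsW w))) (tT θ (tyW (clsW w))) (lev w - 1)
      (antis (tyW (clsW w)) (PW w)) := by
    rw [h4]
    exact (filS ℚ (aT a (tyW (clsW w))) (tT θ (tyW (clsW w))) (lev w - 1)).smul_mem _ h2
  unfold gW
  rw [antis_rename_equiv he]
  exact (rename_fil he _ _).2 h5

/-- [W2b] -/
theorem w2b : W2b := by
  intro n a θ hs L d r w e he hng
  unfold Good at hng
  push Not at hng
  obtain ⟨i, j, hij, h, ho⟩ := hng
  rcases lt_or_gt_of_ne hij with h1 | h1
  · exact w2b_aux hs w (Gc_vW hs w) h1 h ho e he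
  · exact w2b_aux hs w (Gc_vW hs w) h1 h.symm (h ▸ ho) e he

/-! ### (SG1), (SG2) in the form used by W3 -/

/-- (SG2) -/
theorem SG2 (hs : SymD a θ) (w : Fin r → Ltr L) {i j : Fin r} (hij : i ≠ j) (h : w i = w j) :
    (-1 : ℚ) ^ invN (aT a (tyW (clsW w))) (exN (Equiv.swap i j)) (cW (clsW w)) =
      (-1 : ℚ) ^ arD a (cls (w i)) (cls (w i)) := by
  rcases lt_or_gt_of_ne hij with h1 | h1
  · obtain ⟨m, hm⟩ := invN_swap hs (clsW w) (fun j => cls_wt (w j)) h1 (congrArg cls h)
    rw [hm, pow_add, pow_mul]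
    simp
  · obtain ⟨m, hm⟩ := invN_swap hs (clsW w) (fun j => cls_wt (w j)) h1 (congrArg cls h.symm)
    rw [Equiv.swap_comm, hm, pow_add, pow_mul, h]
    simp

/-- (SG1) -/
theorem SG1 (w : Fin r → Ltr L) {i j : Fin r} (hij : i ≠ j) (h : w i = w j) :
    ∃ g : Equiv.Perm (SW (clsW w)), TB (tyW (clsW w)) (tyW (clsW w)) g ∧
      (∀ s, (g s).1 = Equiv.swap i j s.1) ∧ rename g (vW w) = vW w ∧
      sg g = (-1 : ℚ) ^ Theta.deg (cls (w i)) := by
  obtain ⟨g, h1, h2, h3, h4⟩ := exists_swap_blocks w hij h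
  refine ⟨g, h1, fun s => ?_, h4, h2⟩
  have h5 : (s.1 : ℕ) = exN (Equiv.swap i j) (((g s).1 : Fin r) : ℕ) := h3 s
  rw [exN_val] at h5
  rw [Fin.ext h5, Equiv.swap_apply_self]

end

end Vale.Agent.P066.Lab.LSW
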