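import Vale.Agent.P066.Lab.H940.W4a

/-!
# [W4] Final assembly: `W0 → W1 → W2a → W2b → W3 → LSout`
-/

set_option autoImplicit false

open Finset MvPolynomial

namespace Vale.Agent.P066.Lab.LSW

open Vale.Agent.P066.Lab

/-- **[W4].** -/
theorem w4 : W4 := by
  intro h0 h1 h2a h2b h3
  refine lsout_of_GM fun n a θ hs => ?_
  obtain ⟨L⟩ := h0 n a θ hs
  refine ⟨L, fun d hd m => ?_⟩
  choose r w hw using fun M : Multiset (Ltr L) => exists_word M
  have hsum : ∀ i : {M : Multiset (Ltr L) // GoodM M ∧ (M.map cls).sum = d},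
      ∑ j, clsW (w i.1) j = d := fun i => by
    have h4 := map_msW (w i.1) cls
    rw [hw, i.2.2] at h4
    exact h4.symm
  choose e he using fun i => exists_TB (clsW (w (i : {M : Multiset (Ltr L) //
    GoodM M ∧ (M.map cls).sum = d}).1)) (hsum i)
  have hcard := hR0_eq_card h1 h2a h2b h3 hs hd
    (ι := {M : Multiset (Ltr L) // GoodM M ∧ (M.map cls).sum = d})
    (fun i => w i.1) e he (fun i => (good_iff_goodM _).2 (by rw [hw]; exact i.2.1))
    (fun i j hij => Subtype.ext (by simpa only [hw] using hij))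
    (fun r' w' e' he' hg' => by
      refine ⟨⟨msW w', (good_iff_goodM _).1 hg', ?_⟩, hw _⟩
      rw [map_msW]
      exact sum_eq_of_TB _ e' he') m
  rw [hcard]
  refine Nat.card_congr ((Equiv.subtypeSubtypeEquivSubtypeInter _
    (fun M : Multiset (Ltr L) => degW a (w M) = m)).trans (Equiv.subtypeEquivRight fun M => ?_))
  rw [and_assoc]
  refine and_congr_right fun _ => and_congr_right fun hM => ?_
  have h5 := sum_eL hs (w M)
  have h6 : ∑ j, cls (w M j) = d := by
    rw [← map_msW, hw, hM]
  rw [h6, ← map_msW, hw] at h5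
  rw [h5]
  omega

end Vale.Agent.P066.Lab.LSW
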