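import Vale.Agent.P066.Lab.LSW.Antis

/-!
# [LSW] Antisymmetrisation inside the blocks
-/

set_option autoImplicit false
set_option linter.unusedSectionVars false

open Finset MvPolynomial

namespace Vale.Agent.P066.Lab.LSW

open Vale.Agent.P066.Lab
open Vale.Agent.P066.Theta.H422 (Alt TP mem_TP mem_Alt)

noncomputable section

variable {n r : ℕ} (a : Fin n → Fin n → ℕ) {θ : Fin n → ℤ}

/-- `K · ∏_j u_j(block j) · ∏ uk_j ^ α_j` -/
def PD (D : Fin r → Fin n →₀ ℕ) (u : ∀ j, MvPolynomial (Pt (D j)) ℚ) (α : ℕ →₀ ℕ) :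
    MvPolynomial (SW D) ℚ :=
  KC ℚ (aT a (tyW D)) (cW D) * ((∏ j, rename (Sigma.mk j) (u j)) * um ℚ (cW D) α)

variable {a}

theorem PW_eq_PD {L : Letters a θ} (w : Fin r → Ltr L) :
    PW w = PD a (clsW w) (fun j => vl (w j)) (αW w) := rfl

/-- the permutation `σ` of the block `j` -/
def ext (D : Fin r → Fin n →₀ ℕ) (j : Fin r) (σ : Equiv.Perm (Pt (D j))) :
    Equiv.Perm (SW D) :=
  Equiv.sigmaCongrRight (Function.update (fun i => Equiv.refl (Pt (D i))) j σ)

theorem ext_apply_same (D : Fin r → Fin n →₀ ℕ) (j : Fin r) (σ : Equiv.Perm (Pt (D j)))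
    (p : Pt (D j)) : ext D j σ ⟨j, p⟩ = ⟨j, σ p⟩ := by
  simp [ext]

theorem ext_apply_ne (D : Fin r → Fin n →₀ ℕ) {i j : Fin r} (h : i ≠ j)
    (σ : Equiv.Perm (Pt (D j))) (p : Pt (D i)) : ext D j σ ⟨i, p⟩ = ⟨i, p⟩ := by
  simp [ext, Function.update_of_ne h]

theorem ext_fst (D : Fin r → Fin n →₀ ℕ) (j : Fin r) (σ : Equiv.Perm (Pt (D j))) (s : SW D) :
    (ext D j σ s).1 = s.1 := rfl

theorem cW_comp_ext (D : Fin r → Fin n →₀ ℕ) (j : Fin r) (σ : Equiv.Perm (Pt (D j))) :
    cW D ∘ ext D j σ = cW D := rfl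

theorem sign_ext (D : Fin r → Fin n →₀ ℕ) (j : Fin r) (σ : Equiv.Perm (Pt (D j))) :
    Equiv.Perm.sign (ext D j σ) = Equiv.Perm.sign σ := by
  symm
  refine Equiv.Perm.sign_bij (fun p _ => (⟨j, p⟩ : SW D)) ?_ ?_ ?_
  · intro p hp h
    exact (ext_apply_same D j σ p).symm ▸ rfl
  · intro p q _ _ h
    simpa using h
  · rintro ⟨i, p⟩ hp
    by_cases hij : i = j
    · subst hij
      refine ⟨p, ?_, rfl⟩
      intro h
      apply hp
      rw [ext_apply_same, h]
    · exact absurd (ext_apply_ne D hij σ p) hp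

theorem sg_ext (D : Fin r → Fin n →₀ ℕ) (j : Fin r) (σ : Equiv.Perm (Pt (D j))) :
    sg (ext D j σ) = sg σ := by
  unfold sg
  rw [sign_ext]

theorem ext_mem_TP (D : Fin r → Fin n →₀ ℕ) (j : Fin r) {σ : Equiv.Perm (Pt (D j))}
    (h : σ ∈ TP (Sigma.fst : Pt (D j) → Fin n)) : ext D j σ ∈ TP (tyW D) := by
  rw [mem_TP] at h ⊢
  rintro ⟨i, p⟩
  by_cases hij : i = j
  · subst hij
    rw [ext_apply_same]
    exact h p
  · rw [ext_apply_ne D hij]

theorem rename_ext_um (D : Fin r → Fin n →₀ ℕ) (j : Fin r) (σ : Equiv.Perm (Pt (D j)))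
    (α : ℕ →₀ ℕ) : rename (ext D j σ) (um ℚ (cW D) α) = um ℚ (cW D) α := by
  unfold um Finsupp.prod
  rw [map_prod]
  refine prod_congr rfl fun i _ => ?_
  rw [map_pow]
  congr 1
  have := uk_equiv ℚ (ext D j σ) (cW D) i
  rwa [cW_comp_ext] at this

theorem rename_ext_KC (D : Fin r → Fin n →₀ ℕ) (j : Fin r) {σ : Equiv.Perm (Pt (D j))}
    (h : σ ∈ TP (Sigma.fst : Pt (D j) → Fin n)) :
    rename (ext D j σ) (KC ℚ (aT a (tyW D)) (cW D)) = KC ℚ (aT a (tyW D)) (cW D) := by
  have := KC_equiv ℚ (ext D j σ) (a := aT a (tyW D)) (a' := aT a (tyW D))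
    ((tb_of_mem_TP (ext_mem_TP D j h)).aT_eq a) (cW D)
  rwa [cW_comp_ext] at this

theorem rename_ext_PD (D : Fin r → Fin n →₀ ℕ) (u : ∀ j, MvPolynomial (Pt (D j)) ℚ)
    (α : ℕ →₀ ℕ) (j : Fin r) {σ : Equiv.Perm (Pt (D j))}
    (h : σ ∈ TP (Sigma.fst : Pt (D j) → Fin n)) :
    rename (ext D j σ) (PD a D u α) = PD a D (Function.update u j (rename σ (u j))) α := by
  unfold PD
  rw [map_mul, map_mul, rename_ext_KC D j h, rename_ext_um, map_prod]
  congr 2
  refine prod_congr rfl fun i _ => ?_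
  rw [rename_rename]
  by_cases hij : i = j
  · subst hij
    rw [Function.update_self, rename_rename]
    congr 2
    funext p
    exact ext_apply_same D i σ p
  · rw [Function.update_of_ne hij]
    congr 2
    funext p
    exact ext_apply_ne D hij σ p

theorem PD_update_sum (D : Fin r → Fin n →₀ ℕ) (u : ∀ j, MvPolynomial (Pt (D j)) ℚ)
    (α : ℕ →₀ ℕ) (j : Fin r) {ι : Type*} (F : Finset ι) (c : ι → ℚ)
    (g : ι → MvPolynomial (Pt (D j)) ℚ) :
    PD a D (Function.update u j (∑ i ∈ F, c i • g i)) α =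
      ∑ i ∈ F, c i • PD a D (Function.update u j (g i)) α := by
  have key : ∀ x : MvPolynomial (Pt (D j)) ℚ,
      (∏ i, rename (Sigma.mk (β := fun i => Pt (D i)) i) (Function.update u j x i)) =
        rename (Sigma.mk (β := fun i => Pt (D i)) j) x *
          ∏ i ∈ univ.erase j, rename (Sigma.mk (β := fun i => Pt (D i)) i) (u i) := by
    intro x
    rw [← mul_prod_erase univ _ (mem_univ j), Function.update_self]
    congr 1
    refine prod_congr rfl fun i hi => ?_
    rw [Function.update_of_ne (ne_of_mem_erase hi)]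
  unfold PD
  simp only [key]
  rw [map_sum, sum_mul, sum_mul, mul_sum]
  refine sum_congr rfl fun i _ => ?_
  rw [map_smul]
  simp only [smul_mul_assoc, mul_smul_comm]

theorem PD_update_antis (D : Fin r → Fin n →₀ ℕ) (u : ∀ j, MvPolynomial (Pt (D j)) ℚ)
    (α : ℕ →₀ ℕ) (j : Fin r) :
    PD a D (Function.update u j (antis Sigma.fst (u j))) α =
      ∑ σ ∈ TP (Sigma.fst : Pt (D j) → Fin n), sg σ • rename (ext D j σ) (PD a D u α) := by
  rw [antis_apply, PD_update_sum]
  exact sum_congr rfl fun σ hσ => by rw [rename_ext_PD D u α j hσ]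

/-- averaging in the block `j` does not change the antisymmetrisation (up to the order) -/
theorem antis_PD_update {S : Type} [Fintype S] [DecidableEq S] {ty : S → Fin n}
    (D : Fin r → Fin n →₀ ℕ) {e : SW D ≃ S} (he : TB (tyW D) ty e)
    (u : ∀ j, MvPolynomial (Pt (D j)) ℚ) (α : ℕ →₀ ℕ) (j : Fin r) :
    antis ty (rename e (PD a D (Function.update u j (antis Sigma.fst (u j))) α)) =
      ((TP (Sigma.fst : Pt (D j) → Fin n)).card : ℚ) • antis ty (rename e (PD a D u α)) := by
  rw [PD_update_antis, antis_rename_equiv he, antis_rename_equiv he, map_sum, map_sum,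
    sum_congr rfl (g := fun _ => rename e (antis (tyW D) (PD a D u α))) fun σ hσ => ?_]
  · rw [sum_const, ← Nat.cast_smul_eq_nsmul ℚ]
  · rw [map_smul, antis_rename _ (ext_mem_TP D j hσ), sg_ext, smul_smul, sg_mul_self, one_smul]

/-- **Averaging in all blocks.** -/
theorem antis_PD {S : Type} [Fintype S] [DecidableEq S] {ty : S → Fin n}
    (D : Fin r → Fin n →₀ ℕ) {e : SW D ≃ S} (he : TB (tyW D) ty e)
    (u : ∀ j, MvPolynomial (Pt (D j)) ℚ) (α : ℕ →₀ ℕ) :
    ∃ c : ℚ, c ≠ 0 ∧
      antis ty (rename e (PD a D u α)) =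
        c • antis ty (rename e (PD a D (fun j => antis Sigma.fst (u j)) α)) := by
  classical
  have key : ∀ F : Finset (Fin r), ∃ c : ℚ, c ≠ 0 ∧
      antis ty (rename e (PD a D u α)) =
        c • antis ty (rename e (PD a D
          (fun j => if j ∈ F then antis Sigma.fst (u j) else u j) α)) := by
    intro F
    induction F using Finset.induction_on with
    | empty => exact ⟨1, one_ne_zero, by simp⟩
    | insert j F hj ih =>
      obtain ⟨c, hc, h⟩ := ih
      set u' : ∀ j, MvPolynomial (Pt (D j)) ℚ :=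
        fun j => if j ∈ F then antis Sigma.fst (u j) else u j with hu'
      have h1 := antis_PD_update (a := a) D he u' α j
      have h2 : Function.update u' j (antis Sigma.fst (u' j)) =
          fun i => if i ∈ insert j F then antis Sigma.fst (u i) else u i := by
        funext i
        by_cases hij : i = j
        · subst hij
          rw [Function.update_self]
          simp [hu', hj]
        · rw [Function.update_of_ne hij]
          simp [hu', hij]
      rw [h2] at h1
      have hT := card_TP_ne_zero (Sigma.fst : Pt (D j) → Fin n)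
      refine ⟨c * ((TP (Sigma.fst : Pt (D j) → Fin n)).card : ℚ)⁻¹,
        mul_ne_zero hc (inv_ne_zero hT), ?_⟩
      rw [h1, smul_smul, mul_assoc, inv_mul_cancel₀ hT, mul_one, h]
  obtain ⟨c, hc, h⟩ := key univ
  exact ⟨c, hc, by simpa using h⟩

end

end Vale.Agent.P066.Lab.LSW
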