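import Vale.Agent.P066.Lab.LSW.Words
import Vale.Agent.P066.Lab.KunSigma

/-!
# [LSW] Kuenneth facts for the particle set of a word
-/

set_option autoImplicit false
set_option linter.unusedSectionVars false

open Finset MvPolynomial

namespace Vale.Agent.P066.Lab.LSW

open Vale.Agent.P066.Lab
open Vale.Agent.P066.Theta.H422 (Alt TP mem_TP mem_Alt)

noncomputable section

variable {n r : ℕ} {a : Fin n → Fin n → ℕ} {θ : Fin n → ℤ}

/-- Products of elements of the `V`'s lie in `Gc`. -/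
theorem Gc_prod_word (h : SymD a θ) {D : Fin r → Fin n →₀ ℕ} (hD : ∀ j, D j ≠ 0)
    (hD0 : ∀ j, Theta.wt θ (D j) = 0) {v : ∀ j, MvPolynomial (Pt (D j)) ℚ}
    (hv : ∀ j, Fil ℚ (aP a (D j)) (θP θ (D j)) 1 (v j)) :
    Gc ℚ (aT a (tyW D)) (tT θ (tyW D)) (cW D) (∏ j, rename (Sigma.mk j) (v j)) :=
  Gc_sigma (P := fun j => Pt (D j)) (SymZ_typed h (tyW D)) (fun j => exists_Pt (hD j)) (Zc_cW D hD0) hv

/-- `vW w ∈ Gc` -/
theorem Gc_vW (h : SymD a θ) {L : Letters a θ} (w : Fin r → Ltr L) :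
    Gc ℚ (aT a (tyW (clsW w))) (tT θ (tyW (clsW w))) (cW (clsW w)) (vW w) :=
  Gc_prod_word h (fun j => L.ne _ (w j).2.1) (fun j => L.wt _ (w j).2.1)
    (fun j => L.fil _ (w j).2.1)

/-- An element of `Gc` of a family of classes is a combination of products of elements of the
`V`'s, modulo `JC`. -/
theorem exists_span_word (h : SymD a θ) {D : Fin r → Fin n →₀ ℕ} (hD : ∀ j, D j ≠ 0)
    (hD0 : ∀ j, Theta.wt θ (D j) = 0) {f : MvPolynomial (SW D) ℚ}
    (hf : Gc ℚ (aT a (tyW D)) (tT θ (tyW D)) (cW D) f) :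
    ∃ g ∈ Submodule.span ℚ {h | ∃ v : ∀ j, MvPolynomial (Pt (D j)) ℚ,
        (∀ j, Fil ℚ (aP a (D j)) (θP θ (D j)) 1 (v j)) ∧
        h = ∏ j, rename (Sigma.mk j) (v j)},
      f - g ∈ JC ℚ (aT a (tyW D)) (tT θ (tyW D)) (cW D) :=
  exists_span_sigma (P := fun j => Pt (D j)) (SymZ_typed h (tyW D)) (fun j => exists_Pt (hD j))
    (Zc_cW D hD0) hf

/-- Products of families which are independent modulo the ideals of the blocks are independent
modulo `JC`. -/
theorem linearIndependent_word {D : Fin r → Fin n →₀ ℕ} {κ : Fin r → Type*}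
    (v : ∀ j, κ j → MvPolynomial (Pt (D j)) ℚ)
    (h : ∀ j, LinearIndependent ℚ
      (fun x => Ideal.Quotient.mk (J0 ℚ (aP a (D j)) (θP θ (D j)) univ) (v j x))) :
    LinearIndependent ℚ (fun f : (∀ j, κ j) =>
      Ideal.Quotient.mk (JC ℚ (aT a (tyW D)) (tT θ (tyW D)) (cW D))
        (∏ j, rename (Sigma.mk j) (v j (f j)))) :=
  linearIndependent_prod_sigma (P := fun j => Pt (D j)) (a := aT a (tyW D))
    (θ := tT θ (tyW D)) v h

/-- The products of the basis elements of the letters, for fixed classes of the blocks, are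
independent modulo `JC`. -/
theorem linearIndependent_Y (L : Letters a θ) (D : Fin r → Fin n →₀ ℕ) :
    LinearIndependent ℚ (fun y : (∀ j, L.Y (D j)) =>
      Ideal.Quotient.mk (JC ℚ (aT a (tyW D)) (tT θ (tyW D)) (cW D))
        (∏ j, rename (Sigma.mk j) (L.v (y j)))) :=
  linearIndependent_word (fun j (y : L.Y (D j)) => L.v y) fun j => L.ind (D j)

end

end Vale.Agent.P066.Lab.LSW
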