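import Vale.Agent.P066.Lab.LSW.Antis
import Vale.Agent.P066.Lab.H269.Recol

/-!
# [LSW] Basic facts on words: symmetry, weights, number of blocks, order of the letters
-/

set_option autoImplicit false

open Finset MvPolynomial

namespace Vale.Agent.P066.Lab.LSW

open Vale.Agent.P066.Lab
open Vale.Agent.P066.Theta.H422 (Alt TP mem_TP mem_Alt)

noncomputable section

variable {n : ℕ} {a : Fin n → Fin n → ℕ} {θ : Fin n → ℤ}

/-! ### typed particle sets -/

section Typed

variable {S : Type} [Fintype S] [DecidableEq S]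

/-- the class of a set of particles -/
def clT (ty : S → Fin n) (X : Finset S) : Fin n →₀ ℕ :=
  Finsupp.equivFunOnFinite.symm fun i => (X.filter fun s => ty s = i).card

theorem sum_typed (ty : S → Fin n) (X : Finset S) (f : Fin n → ℤ) :
    ∑ s ∈ X, f (ty s) = ∑ i, (clT ty X i : ℤ) * f i := by
  rw [← sum_fiberwise X ty]
  refine sum_congr rfl fun i _ => ?_
  rw [sum_congr rfl (g := fun _ => f i) fun s hs => by rw [(mem_filter.1 hs).2], sum_const,
    nsmul_eq_mul]
  rfl

theorem wS_typed (ty : S → Fin n) (X : Finset S) :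
    wS (tT θ ty) X = Theta.wt θ (clT ty X) := by
  unfold wS Theta.wt
  exact sum_typed ty X θ

theorem ar_typed (ty : S → Fin n) (X Y : Finset S) :
    ar (aT a ty) X Y = arD a (clT ty X) (clT ty Y) := by
  unfold ar arD
  have h1 : ∀ s ∈ X, ∑ t ∈ Y, (aT a ty s t : ℤ) = ∑ j, (clT ty Y j : ℤ) * a (ty s) j :=
    fun s _ => sum_typed ty Y fun j => (a (ty s) j : ℤ)
  rw [sum_congr rfl h1, sum_typed ty X fun i => ∑ j, (clT ty Y j : ℤ) * a i j]
  push_cast
  refine sum_congr rfl fun i _ => ?_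
  rw [mul_sum]
  exact sum_congr rfl fun j _ => by ring

theorem SymZ_typed (hs : SymD a θ) (ty : S → Fin n) : SymZ (aT a ty) (tT θ ty) := by
  intro X Y _ hX hY
  rw [ar_typed, ar_typed]
  rw [wS_typed] at hX hY
  exact_mod_cast hs _ _ hX hY

end Typed

/-! ### extension of a permutation of `Fin r` to `ℕ` -/

variable {r : ℕ}

/-- extension of a permutation of `Fin r` to `ℕ` -/
def exN (τ : Equiv.Perm (Fin r)) (i : ℕ) : ℕ := if h : i < r then (τ ⟨i, h⟩ : ℕ) else i

@[simp] theorem exN_val (τ : Equiv.Perm (Fin r)) (j : Fin r) : exN τ j = τ j := by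
  unfold exN
  rw [dif_pos j.2]

theorem exN_injective (τ : Equiv.Perm (Fin r)) : Function.Injective (exN τ) := by
  intro i j h
  unfold exN at h
  by_cases hi : i < r <;> by_cases hj : j < r
  · rw [dif_pos hi, dif_pos hj] at h
    have := τ.injective (Fin.ext h)
    exact congrArg Fin.val this
  · rw [dif_pos hi, dif_neg hj] at h
    have := (τ ⟨i, hi⟩).2
    omega
  · rw [dif_neg hi, dif_pos hj] at h
    have := (τ ⟨j, hj⟩).2
    omega
  · rwa [dif_neg hi, dif_neg hj] at h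

/-! ### the colouring of a word -/

section CW

variable (D : Fin r → Fin n →₀ ℕ)

theorem blk_cW (j : Fin r) : blk (cW D) (j : ℕ) = univ.filter fun s : SW D => s.1 = j := by
  ext s
  simp [cW, Fin.ext_iff]

theorem blk_cW_of_le {i : ℕ} (h : r ≤ i) : blk (cW D) i = ∅ := by
  ext s
  simp only [mem_blk, cW, notMem_empty, iff_false]
  have := s.1.2
  omega

theorem clT_blk (j : Fin r) : clT (tyW D) (blk (cW D) (j : ℕ)) = D j := by
  ext i
  rw [blk_cW]
  change (((univ : Finset (SW D)).filter fun s => s.1 = j).filter fun s => s.2.1 = i).card = D j i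
  have : (((univ : Finset (SW D)).filter fun s => s.1 = j).filter fun s => s.2.1 = i) =
      (univ : Finset (Fin (D j i))).map ⟨fun x => (⟨j, i, x⟩ : SW D), fun x y h => by simpa using h⟩
      := by
    ext ⟨j', i', x⟩
    simp only [mem_filter, mem_univ, true_and, mem_map, Function.Embedding.coeFn_mk]
    constructor
    · rintro ⟨rfl, rfl⟩
      exact ⟨x, rfl⟩
    · rintro ⟨y, hy⟩
      cases hy
      exact ⟨rfl, rfl⟩
  rw [this, card_map, card_univ, Fintype.card_fin]

theorem wS_cW (j : Fin r) : wS (tT θ (tyW D)) (blk (cW D) (j : ℕ)) = Theta.wt θ (D j) := by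
  rw [wS_typed, clT_blk]

theorem Zc_cW (h : ∀ j, Theta.wt θ (D j) = 0) : Zc (tT θ (tyW D)) (cW D) := by
  intro i
  by_cases hi : i < r
  · rw [← h ⟨i, hi⟩, ← wS_cW]
  · rw [blk_cW_of_le D (not_lt.1 hi)]
    simp [wS]

theorem exists_Pt {d : Fin n →₀ ℕ} (h : d ≠ 0) : Nonempty (Pt d) := by
  obtain ⟨i, hi⟩ := Finsupp.ne_iff.1 h
  exact ⟨⟨i, ⟨0, Nat.pos_of_ne_zero hi⟩⟩⟩

theorem image_cW (h : ∀ j, D j ≠ 0) : univ.image (cW D) = range r := by
  ext i
  simp only [mem_image, mem_univ, true_and, mem_range]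
  constructor
  · rintro ⟨s, rfl⟩
    exact s.1.2
  · intro hi
    obtain ⟨p⟩ := exists_Pt (h ⟨i, hi⟩)
    exact ⟨⟨⟨i, hi⟩, p⟩, rfl⟩

theorem nb_cW (h : ∀ j, D j ≠ 0) : nb (cW D) = r := by
  unfold nb
  rw [image_cW D h, card_range]

end CW

/-! ### words -/

variable {L : Letters a θ}

theorem cls_ne (l : Ltr L) : cls l ≠ 0 := L.ne _ l.2.1

theorem cls_wt (l : Ltr L) : Theta.wt θ (cls l) = 0 := L.wt _ l.2.1

theorem αW_apply (w : Fin r → Ltr L) (j : Fin r) : αW w j = ml (w j) := by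
  classical
  unfold αW
  rw [Finsupp.finsetSum_apply, sum_eq_single j]
  · simp
  · intro i _ hi
    rw [Finsupp.single_apply, if_neg]
    exact fun h => hi (Fin.ext h)
  · intro h
    exact absurd (mem_univ _) h

theorem degree_αW (w : Fin r → Ltr L) : (αW w).degree = ∑ j, ml (w j) := by
  unfold αW
  rw [map_sum]
  exact sum_congr rfl fun j _ => Finsupp.degree_single _ _

theorem αW_support (w : Fin r → Ltr L) : ∀ i ∈ (αW w).support, i ∈ univ.image (cW (clsW w)) := by
  intro i hi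
  rw [image_cW _ fun j => cls_ne _, mem_range]
  by_contra h
  rw [Finsupp.mem_support_iff] at hi
  apply hi
  unfold αW
  rw [Finsupp.finsetSum_apply]
  refine sum_eq_zero fun j _ => ?_
  rw [Finsupp.single_apply, if_neg]
  have := j.2
  omega

theorem lev_eq (w : Fin r → Ltr L) :
    lev w = 2 * ((αW w).degree : ℤ) + nb (cW (clsW w)) := by
  rw [nb_cW _ fun j => cls_ne _, degree_αW]
  unfold lev
  push_cast
  rfl

/-- `um` under a bijection -/
theorem um_equiv {S S' : Type} [Fintype S] [DecidableEq S] [Fintype S'] [DecidableEq S']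
    (e : S' ≃ S) (c : S → ℕ) (α : ℕ →₀ ℕ) : rename e (um ℚ (c ∘ e) α) = um ℚ c α := by
  unfold um Finsupp.prod
  rw [map_prod]
  refine prod_congr rfl fun i _ => ?_
  rw [map_pow, uk_equiv]

/-- the exponents after a permutation of the letters -/
theorem αW_comp (w : Fin r → Ltr L) (τ : Equiv.Perm (Fin r)) :
    αW (w ∘ τ) = (αW w).mapDomain (exN τ.symm) := by
  unfold αW
  rw [← Finsupp.mapDomain.addMonoidHom_apply, map_sum]
  conv_rhs => rw [← Equiv.sum_comp τ]
  refine sum_congr rfl fun j _ => ?_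
  rw [Finsupp.mapDomain.addMonoidHom_apply, Finsupp.mapDomain_single, exN_val,
    Equiv.symm_apply_apply]
  rfl

/-- the permutation of the blocks as a bijection of the particle sets -/
abbrev eτ (w : Fin r → Ltr L) (τ : Equiv.Perm (Fin r)) : SW (clsW (w ∘ τ)) ≃ SW (clsW w) :=
  Equiv.sigmaCongrLeft (β := fun j => Pt (clsW w j)) τ

theorem eτ_apply (w : Fin r → Ltr L) (τ : Equiv.Perm (Fin r)) (j : Fin r)
    (p : Pt (clsW w (τ j))) : eτ w τ ⟨j, p⟩ = ⟨τ j, p⟩ := rfl

theorem eτ_TB (w : Fin r → Ltr L) (τ : Equiv.Perm (Fin r)) :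
    TB (tyW (clsW (w ∘ τ))) (tyW (clsW w)) (eτ w τ) := fun _ => rfl

theorem cW_eτ (w : Fin r → Ltr L) (τ : Equiv.Perm (Fin r)) :
    cW (clsW (w ∘ τ)) = (exN τ.symm ∘ cW (clsW w)) ∘ eτ w τ := by
  funext ⟨j, p⟩
  change (j : ℕ) = exN τ.symm ((τ j : Fin r) : ℕ)
  rw [exN_val, Equiv.symm_apply_apply]

theorem rename_vW (w : Fin r → Ltr L) (τ : Equiv.Perm (Fin r)) :
    rename (eτ w τ) (vW (w ∘ τ)) = vW w := by
  unfold vW
  rw [map_prod]
  conv_rhs => rw [← Equiv.prod_comp τ]
  refine prod_congr rfl fun j _ => ?_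
  rw [rename_rename]
  rfl

/-- the element of the permuted word, on the original particle set -/
theorem rename_PW (w : Fin r → Ltr L) (τ : Equiv.Perm (Fin r)) :
    rename (eτ w τ) (PW (w ∘ τ)) =
      KC ℚ (aT a (tyW (clsW w))) (exN τ.symm ∘ cW (clsW w)) *
        (vW w * um ℚ (cW (clsW w)) (αW w)) := by
  unfold PW
  rw [map_mul, map_mul, rename_vW, cW_eτ, um_equiv, αW_comp,
    um_recolour (exN_injective _)]
  have h : rename (eτ w τ) (KC ℚ (aT a (tyW (clsW (w ∘ τ))))
      ((exN τ.symm ∘ cW (clsW w)) ∘ eτ w τ)) =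
      KC ℚ (aT a (tyW (clsW w))) (exN τ.symm ∘ cW (clsW w)) :=
    KC_equiv ℚ (eτ w τ) ((eτ_TB w τ).aT_eq a) _
  rw [h]

end

end Vale.Agent.P066.Lab.LSW
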