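import Vale.Agent.P066.Lab.LSW.Block
import Vale.Agent.P066.Lab.LSW.Words

/-!
# [LSW] W1 (C): products of elements of the `V` of the blocks are combinations of words
-/

set_option autoImplicit false
set_option linter.unusedSectionVars false

open Finset MvPolynomial

namespace Vale.Agent.P066.Lab.LSW

open Vale.Agent.P066.Lab
open Vale.Agent.P066.Theta.H422 (Alt TP mem_TP mem_Alt)

noncomputable section

/-- `KC c * JC c ≤ J0 univ` for a zero colouring `c`. -/
theorem KC_mul_JC {S : Type} [Fintype S] [DecidableEq S] {a' : S → S → ℕ} {θ' : S → ℤ}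
    {c : S → ℕ} (hc : Zc θ' c) {f : MvPolynomial S ℚ} (hf : f ∈ JC ℚ a' θ' c) :
    KC ℚ a' c * f ∈ J0 ℚ a' θ' univ := by
  have h1 := inP_mul_mem (k := ℚ) (a := a') (θ := θ') hc (ref_const c 0) hf
  have h2 : inP (fun _ : S => 0) c = univ.filter fun p : S × S => c p.1 < c p.2 := by
    unfold inP
    simp
  rw [h2] at h1
  have h3 : JC ℚ a' θ' (fun _ => 0) ≤ J0 ℚ a' θ' univ := by
    rw [JC_le_iff]
    intro i X hX hw
    rcases eq_or_ne i 0 with rfl | hi
    · have : blk (fun _ : S => 0) 0 = univ := by ext s; simp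
      rw [this] at hX ⊢
      exact Ideal.subset_span ⟨X, hX, hw, rfl⟩
    · have : blk (fun _ : S => 0) i = ∅ := by
        ext s
        simp [Ne.symm hi]
      rw [this] at hX
      rw [subset_empty] at hX
      subst hX
      simp [wS] at hw
  exact h3 h1

variable {n r : ℕ} {a : Fin n → Fin n → ℕ} {θ : Fin n → ℤ}

theorem image_mk_blk (D : Fin r → Fin n →₀ ℕ) (j : Fin r) :
    (univ : Finset (Pt (D j))).image (Sigma.mk (β := fun i => Pt (D i)) j) =
      blk (cW D) (j : ℕ) := by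
  ext s
  rw [mem_image, mem_blk]
  constructor
  · rintro ⟨p, _, rfl⟩
    rfl
  · intro h
    obtain ⟨i, p⟩ := s
    have : i = j := Fin.ext h
    subst this
    exact ⟨p, mem_univ _, rfl⟩

theorem sigma_mk_injective (D : Fin r → Fin n →₀ ℕ) (j : Fin r) :
    Function.Injective (Sigma.mk (β := fun i => Pt (D i)) j) := sigma_mk_injective' j
where
  sigma_mk_injective' (j : Fin r) : Function.Injective (Sigma.mk (β := fun i => Pt (D i)) j) :=
    fun x y h => by simpa using h

theorem wS_Pt (d : Fin n →₀ ℕ) : wS (θP θ d) univ = Theta.wt θ d := by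
  unfold wS θP Theta.wt
  rw [Fintype.sum_sigma]
  refine sum_congr rfl fun i _ => ?_
  show ∑ _y : Fin (d i), θ i = _
  rw [sum_const, card_univ, Fintype.card_fin, nsmul_eq_mul]

theorem rename_mk_mem_JC (D : Fin r → Fin n →₀ ℕ) (j : Fin r) {z : MvPolynomial (Pt (D j)) ℚ}
    (hz : z ∈ J0 ℚ (aP a (D j)) (θP θ (D j)) univ) :
    rename (Sigma.mk (β := fun i => Pt (D i)) j) z ∈
      JC ℚ (aT a (tyW D)) (tT θ (tyW D)) (cW D) := by
  have h1 : rename (Sigma.mk (β := fun i => Pt (D i)) j) z ∈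
      J0 ℚ (aT a (tyW D)) (tT θ (tyW D)) (blk (cW D) (j : ℕ)) := by
    rw [← image_mk_blk D j]
    exact (mem_J0_iff ℚ (a := aT a (tyW D)) (a' := aP a (D j)) (θ := tT θ (tyW D))
      (θ' := θP θ (D j)) (sigma_mk_injective D j) (fun _ _ => rfl) (fun _ => rfl) univ z).2 hz
  exact J0_le_JC _ _ h1

/-- a slot in `J0` kills the product -/
theorem PD_mem_J0 (D : Fin r → Fin n →₀ ℕ) (hw : ∀ j, Theta.wt θ (D j) = 0)
    (u : ∀ j, MvPolynomial (Pt (D j)) ℚ) (α : ℕ →₀ ℕ) (j : Fin r)
    (hz : u j ∈ J0 ℚ (aP a (D j)) (θP θ (D j)) univ) :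
    PD a D u α ∈ J0 ℚ (aT a (tyW D)) (tT θ (tyW D)) univ := by
  unfold PD
  refine KC_mul_JC (Zc_cW D hw) ?_
  refine Ideal.mul_mem_right _ _ ?_
  rw [← mul_prod_erase univ _ (mem_univ j)]
  exact Ideal.mul_mem_right _ _ (rename_mk_mem_JC D j hz)

theorem PD_update_add (D : Fin r → Fin n →₀ ℕ) (u : ∀ j, MvPolynomial (Pt (D j)) ℚ)
    (α : ℕ →₀ ℕ) (j : Fin r) (x y : MvPolynomial (Pt (D j)) ℚ) :
    PD a D (Function.update u j (x + y)) α =
      PD a D (Function.update u j x) α + PD a D (Function.update u j y) α := by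
  have h := PD_update_sum (a := a) D u α j (univ : Finset Bool) (fun _ => 1)
    (fun b => if b then x else y)
  simpa using h

theorem PD_update_smul (D : Fin r → Fin n →₀ ℕ) (u : ∀ j, MvPolynomial (Pt (D j)) ℚ)
    (α : ℕ →₀ ℕ) (j : Fin r) (c : ℚ) (x : MvPolynomial (Pt (D j)) ℚ) :
    PD a D (Function.update u j (c • x)) α = c • PD a D (Function.update u j x) α := by
  have h := PD_update_sum (a := a) D u α j (univ : Finset Unit) (fun _ => c) (fun _ => x)
  simpa using h

/-- the words of a given level, antisymmetrised, together with `J0` -/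
def WS (L : Letters a θ) (d : Fin n →₀ ℕ) (N : ℤ) : Submodule ℚ (MvPolynomial (Pt d) ℚ) :=
  Submodule.span ℚ {g | ∃ (r : ℕ) (w : Fin r → Ltr L) (e : SW (clsW w) ≃ Pt d),
      TB (tyW (clsW w)) Sigma.fst e ∧ lev w ≤ N ∧ g = gW w e} ⊔
    (J0 ℚ (aP a d) (θP θ d) univ).restrictScalars ℚ

theorem WS_mono (L : Letters a θ) (d : Fin n →₀ ℕ) {N N' : ℤ} (h : N ≤ N') :
    WS L d N ≤ WS L d N' := by
  refine sup_le_sup_right (Submodule.span_mono ?_) _
  rintro g ⟨r, w, e, h1, h2, h3⟩
  exact ⟨r, w, e, h1, h2.trans h, h3⟩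

theorem αW_eq (α : ℕ →₀ ℕ) (hα : ∀ i ∈ α.support, i < r) :
    (∑ j : Fin r, Finsupp.single (j : ℕ) (α j)) = α := by
  classical
  ext i
  rw [Finsupp.finsetSum_apply]
  by_cases hi : i < r
  · rw [sum_eq_single ⟨i, hi⟩]
    · simp
    · intro j _ hj
      rw [Finsupp.single_apply, if_neg]
      intro h
      exact hj (Fin.ext h)
    · intro h; exact absurd (mem_univ _) h
  · have h0 : α i = 0 := by
      by_contra h
      exact hi (hα i (Finsupp.mem_support_iff.2 h))
    rw [h0]
    refine sum_eq_zero fun j _ => ?_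
    rw [Finsupp.single_apply, if_neg]
    intro h
    exact hi (h ▸ j.2)

theorem degree_eq_sum (α : ℕ →₀ ℕ) (hα : ∀ i ∈ α.support, i < r) :
    (α.degree : ℤ) = ∑ j : Fin r, (α (j : ℕ) : ℤ) := by
  have h := αW_eq (r := r) α hα
  have h2 : α.degree = ∑ j : Fin r, α (j : ℕ) := by
    conv_lhs => rw [← h]
    rw [map_sum]
    exact sum_congr rfl fun j _ => Finsupp.degree_single _ _
  rw [h2]
  push_cast
  rfl

/-- all slots are basis elements -/
theorem gW_of_letters (L : Letters a θ) {d : Fin n →₀ ℕ} (D : Fin r → Fin n →₀ ℕ)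
    {e : SW D ≃ Pt d} (he : TB (tyW D) Sigma.fst e) (y : ∀ j, L.Y (D j)) (α : ℕ →₀ ℕ)
    (hα : ∀ i ∈ α.support, i < r) {N : ℤ} (hN : 2 * (α.degree : ℤ) + r ≤ N) :
    antis Sigma.fst (rename e (PD a D (fun j => L.v (y j)) α)) ∈ WS L d N := by
  let w : Fin r → Ltr L := fun j => ⟨D j, y j, α (j : ℕ)⟩
  refine Submodule.mem_sup_left (Submodule.subset_span ⟨r, w, e, he, ?_, ?_⟩)
  · unfold lev
    rw [degree_eq_sum α hα] at hN
    exact hN
  · have h1 : αW w = α := αW_eq α hα
    show _ = antis Sigma.fst (rename e (PD a D (fun j => L.v (y j)) (αW w)))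
    rw [h1]

theorem antis_PD_mem_aux (L : Letters a θ) {d : Fin n →₀ ℕ} (D : Fin r → Fin n →₀ ℕ)
    (hD : ∀ j, D j ≠ 0) (hw : ∀ j, Theta.wt θ (D j) = 0)
    {e : SW D ≃ Pt d} (he : TB (tyW D) Sigma.fst e) (α : ℕ →₀ ℕ)
    (hα : ∀ i ∈ α.support, i < r) {N : ℤ} (hN : 2 * (α.degree : ℤ) + r ≤ N)
    (F : Finset (Fin r)) : ∀ (u : ∀ j, MvPolynomial (Pt (D j)) ℚ),
      (∀ j ∈ F, u j ∈ Alt ℚ (Sigma.fst : Pt (D j) → Fin n) ∧
        Fil ℚ (aP a (D j)) (θP θ (D j)) 1 (u j)) →
      (∀ j, j ∉ F → ∃ y : L.Y (D j), u j = L.v y) →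
      antis Sigma.fst (rename e (PD a D u α)) ∈ WS L d N := by
  classical
  induction F using Finset.induction_on with
  | empty =>
    intro u _ h
    choose y hy using fun j => h j (notMem_empty j)
    rw [show u = fun j => L.v (y j) from funext hy]
    exact gW_of_letters L D he y α hα hN
  | insert j F hj ih =>
    intro u h1 h2
    obtain ⟨hA, hF⟩ := h1 j (mem_insert_self j F)
    obtain ⟨g, hg, hgz⟩ := L.span (D j) (hD j) (hw j) (u j) hA hF
    have hsplit : u = Function.update u j (g + (u j - g)) := by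
      rw [add_sub_cancel, Function.update_eq_self]
    rw [hsplit, PD_update_add, map_add, map_add]
    refine add_mem ?_ ?_
    · clear hgz hsplit
      induction hg using Submodule.span_induction with
      | mem x hx =>
        obtain ⟨y, rfl⟩ := hx
        refine ih _ (fun i hi => ?_) (fun i hi => ?_)
        · have hij : i ≠ j := fun h => hj (h ▸ hi)
          rw [Function.update_of_ne hij]
          exact h1 i (mem_insert_of_mem hi)
        · by_cases hij : i = j
          · subst hij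
            exact ⟨y, by rw [Function.update_self]⟩
          · rw [Function.update_of_ne hij]
            exact h2 i (by rw [mem_insert]; tauto)
      | zero =>
        have h0 := PD_update_smul (a := a) D u α j 0 0
        rw [zero_smul, zero_smul] at h0
        rw [h0, map_zero, map_zero]
        exact zero_mem _
      | add x y _ _ hx hy =>
        rw [PD_update_add, map_add, map_add]
        exact add_mem hx hy
      | smul c x _ hx =>
        rw [PD_update_smul, map_smul, map_smul]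
        exact Submodule.smul_mem _ _ hx
    · refine Submodule.mem_sup_right ?_
      rw [Submodule.restrictScalars_mem]
      refine antis_J0 ((rename_mem_J0 he _).2 ?_)
      refine PD_mem_J0 D hw _ α j ?_
      rw [Function.update_self]
      exact hgz

/-- **W1 (C).** -/
theorem antis_PD_mem (L : Letters a θ) {d : Fin n →₀ ℕ} (D : Fin r → Fin n →₀ ℕ)
    (hD : ∀ j, D j ≠ 0) (hw : ∀ j, Theta.wt θ (D j) = 0)
    {e : SW D ≃ Pt d} (he : TB (tyW D) Sigma.fst e)
    (u : ∀ j, MvPolynomial (Pt (D j)) ℚ)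
    (hu : ∀ j, Fil ℚ (aP a (D j)) (θP θ (D j)) 1 (u j)) (α : ℕ →₀ ℕ)
    (hα : ∀ i ∈ α.support, i < r) {N : ℤ} (hN : 2 * (α.degree : ℤ) + r ≤ N) :
    antis Sigma.fst (rename e (PD a D u α)) ∈ WS L d N := by
  obtain ⟨c, _, h⟩ := antis_PD (a := a) D he u α
  rw [h]
  refine Submodule.smul_mem _ _ ?_
  refine antis_PD_mem_aux L D hD hw he α hα hN univ _ (fun j _ => ⟨antis_mem_Alt _ _, ?_⟩)
    (fun j hj => absurd (mem_univ j) hj)
  exact antis_fil (a := a) (θ := θ) (hu j)

end

end Vale.Agent.P066.Lab.LSW
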