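import Vale.Agent.P066.Lab.LSW.Block
import Vale.Agent.P066.Lab.LSW.W2
import Vale.Agent.P066.Lab.H402.Super

/-!
# [LSW] The stabiliser of a good word acts by `+1` on the leading part of `sg g • g P_w`
-/

set_option autoImplicit false
set_option linter.unusedSectionVars false

open Finset MvPolynomial

namespace Vale.Agent.P066.Lab.LSW.V828

open Vale.Agent.P066.Lab Vale.Agent.P066.Lab.LSW Vale.Agent.P066.Lab.H402
open Vale.Agent.P066.Theta.H422 (Alt TP mem_TP mem_Alt)

noncomputable section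

variable {n r : ℕ} {a : Fin n → Fin n → ℕ} {θ : Fin n → ℤ}

/-! ### permutations which preserve the blocks -/

theorem exists_fibre (D : Fin r → Fin n →₀ ℕ) (g : Equiv.Perm (SW D))
    (hg : ∀ s, (g s).1 = s.1) :
    ∃ σ : ∀ j, Equiv.Perm (Pt (D j)), g = Equiv.sigmaCongrRight σ := by
  have h0 : ∀ (s : SW D) (j : Fin r), s.1 = j → ∃ q, s = ⟨j, q⟩ := by
    rintro ⟨i, q⟩ j rfl
    exact ⟨q, rfl⟩
  choose f hf using fun (j : Fin r) (p : Pt (D j)) => h0 (g ⟨j, p⟩) j (hg _)
  have hinj : ∀ j, Function.Injective (f j) := by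
    intro j p q h
    have h1 : g ⟨j, p⟩ = g ⟨j, q⟩ := by rw [hf, hf, h]
    have h2 := g.injective h1
    simpa using h2
  refine ⟨fun j => Equiv.ofBijective (f j) (Finite.injective_iff_bijective.1 (hinj j)), ?_⟩
  ext1 ⟨j, p⟩
  rw [hf]
  rfl

theorem sg_sigmaCongrRight (D : Fin r → Fin n →₀ ℕ) (σ : ∀ j, Equiv.Perm (Pt (D j))) :
    sg (Equiv.sigmaCongrRight σ : Equiv.Perm (SW D)) = ∏ j, sg (σ j) := by
  classical
  have key : ∀ F : Finset (Fin r),
      sg (Equiv.sigmaCongrRight (fun j => if j ∈ F then σ j else 1) : Equiv.Perm (SW D)) =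
        ∏ j ∈ F, sg (σ j) := by
    intro F
    induction F using Finset.induction_on with
    | empty =>
      have : (Equiv.sigmaCongrRight (fun j => if j ∈ (∅ : Finset (Fin r)) then σ j else 1) :
          Equiv.Perm (SW D)) = 1 := by
        ext1 ⟨j, p⟩
        simp
      rw [this, sg_one, prod_empty]
    | insert j F hj ih =>
      have : (Equiv.sigmaCongrRight (fun i => if i ∈ insert j F then σ i else 1) :
          Equiv.Perm (SW D)) =
          ext D j (σ j) * Equiv.sigmaCongrRight (fun i => if i ∈ F then σ i else 1) := by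
        ext1 ⟨i, p⟩
        by_cases hij : i = j
        · subst hij
          rw [Equiv.Perm.mul_apply]
          simp only [Equiv.sigmaCongrRight_apply, Sigma.map, mem_insert_self, if_true, hj, if_false]
          exact (ext_apply_same D i (σ i) p).symm
        · rw [Equiv.Perm.mul_apply]
          simp only [Equiv.sigmaCongrRight_apply, Sigma.map, mem_insert, hij, false_or]
          exact (ext_apply_ne D hij (σ j) _).symm
      rw [this, sg_mul, sg_ext, ih, prod_insert hj]
  have h := key univ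
  simpa using h

/-- a block preserving permutation multiplies a product of alternating polynomials by its sign -/
theorem rename_fibre (D : Fin r → Fin n →₀ ℕ) {u : ∀ j, MvPolynomial (Pt (D j)) ℚ}
    (hu : ∀ j, u j ∈ Alt ℚ (Sigma.fst : Pt (D j) → Fin n)) (g : Equiv.Perm (SW D))
    (hg : ∀ s, (g s).1 = s.1) (hT : g ∈ TP (tyW D)) :
    rename g (∏ j, rename (Sigma.mk j) (u j)) = sg g • ∏ j, rename (Sigma.mk j) (u j) := by
  obtain ⟨σ, rfl⟩ := exists_fibre D g hg
  have hσ : ∀ j, σ j ∈ TP (Sigma.fst : Pt (D j) → Fin n) := by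
    intro j
    rw [mem_TP]
    intro p
    exact (mem_TP _ _).1 hT ⟨j, p⟩
  rw [sg_sigmaCongrRight, ← Finset.prod_smul, map_prod]
  refine prod_congr rfl fun j _ => ?_
  rw [rename_rename, ← map_smul, ← mem_Alt'.1 (hu j) _ (hσ j), rename_rename]
  rfl

variable {L : Letters a θ}

theorem rename_fibre_PW (w : Fin r → Ltr L) (g : Equiv.Perm (SW (clsW w)))
    (hg : ∀ s, (g s).1 = s.1) (hT : g ∈ TP (tyW (clsW w))) :
    rename g (PW w) = sg g • PW w := by
  have hcc : cW (clsW w) = cW (clsW w) ∘ g := by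
    funext s
    show (s.1 : ℕ) = ((g s).1 : ℕ)
    rw [hg]
  have hK : rename g (KC ℚ (aT a (tyW (clsW w))) (cW (clsW w))) =
      KC ℚ (aT a (tyW (clsW w))) (cW (clsW w)) := by
    conv_lhs => rw [hcc]
    exact KC_equiv ℚ g ((tb_of_mem_TP hT).aT_eq a) _
  have hU : rename g (um ℚ (cW (clsW w)) (αW w)) = um ℚ (cW (clsW w)) (αW w) := by
    conv_lhs => rw [hcc]
    rw [um_equiv]
  unfold PW
  rw [map_mul, map_mul, hK, hU]
  have hv : rename g (vW w) = sg g • vW w :=
    rename_fibre (clsW w) (fun j => L.alt _ (w j).2.1) g hg hT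
  rw [hv, smul_mul_assoc, mul_smul_comm]

/-- exchange of the blocks of two equal letters of a non-odd class -/
theorem fil_swap (hs : SymD a θ) (w : Fin r → Ltr L) {i j : Fin r} (hij : i < j) (h : w i = w j)
    (ho : ¬ Odd' a (cls (w i))) :
    ∃ g : Equiv.Perm (SW (clsW w)), g ∈ TP (tyW (clsW w)) ∧
      (∀ s, (g s).1 = Equiv.swap i j s.1) ∧
      Fil ℚ (aT a (tyW (clsW w))) (tT θ (tyW (clsW w))) (lev w - 1)
        (sg g • rename g (PW w) - PW w) := by
  obtain ⟨g, hgT, hgs, hgc, hgv⟩ := exists_swap_blocks w hij.ne h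
  have hcc : cW (clsW w) = (exN (Equiv.swap i j) ∘ cW (clsW w)) ∘ g := funext hgc
  have hK : rename g (KC ℚ (aT a (tyW (clsW w))) (cW (clsW w))) =
      KC ℚ (aT a (tyW (clsW w))) (exN (Equiv.swap i j) ∘ cW (clsW w)) := by
    conv_lhs => rw [hcc]
    exact KC_equiv ℚ g (hgT.aT_eq a) _
  have hww : w ∘ Equiv.swap i j = w := by
    funext x
    by_cases hxi : x = i
    · subst hxi
      rw [Function.comp_apply, Equiv.swap_apply_left, h]
    · by_cases hxj : x = j
      · subst hxj
        rw [Function.comp_apply, Equiv.swap_apply_right, h]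
      · rw [Function.comp_apply, Equiv.swap_apply_of_ne_of_ne hxi hxj]
  have hα : (αW w).mapDomain (exN (Equiv.swap i j)) = αW w := by
    have := αW_comp w (Equiv.swap i j)
    rw [hww, Equiv.symm_swap] at this
    exact this.symm
  have hU : rename g (um ℚ (cW (clsW w)) (αW w)) = um ℚ (cW (clsW w)) (αW w) := by
    conv_lhs => rw [hcc]
    rw [um_equiv]
    conv_lhs => rw [← hα]
    rw [um_recolour (exN_injective _)]
  have hP : rename g (PW w) = KC ℚ (aT a (tyW (clsW w))) (exN (Equiv.swap i j) ∘ cW (clsW w)) *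
      (vW w * um ℚ (cW (clsW w)) (αW w)) := by
    unfold PW
    rw [map_mul, map_mul, hgv, hU, hK]
  have h1 := fil_KC_word hs w (Gc_vW hs w) (exN_injective (Equiv.swap i j))
  rw [← hP] at h1
  obtain ⟨m, hm⟩ := invN_swap hs (clsW w) (fun j => cls_wt (w j)) hij (congrArg cls h)
  have hsgn : (-1 : MvPolynomial (SW (clsW w)) ℚ) ^ invW w (exN (Equiv.swap i j)) =
      C (sg g) := by
    unfold invW
    rw [hm, hgs, pow_add, pow_mul]
    have h2 : (-1 : ℚ) ^ arD a (clsW w i) (clsW w i) = (-1 : ℚ) ^ Theta.deg (cls (w i)) := by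
      unfold Odd' at ho
      rw [Nat.not_odd_iff_even, Nat.even_add] at ho
      rcases Nat.even_or_odd (Theta.deg (cls (w i))) with h4 | h4
      · have h5 : Even (arD a (clsW w i) (clsW w i)) := ho.1 h4
        rw [h4.neg_one_pow, h5.neg_one_pow]
      · have h5 : Odd (arD a (clsW w i) (clsW w i)) := by
          rw [← Nat.not_even_iff_odd]
          intro h6
          exact (Nat.not_even_iff_odd.2 h4) (ho.2 h6)
        rw [h4.neg_one_pow, h5.neg_one_pow]
    rw [← h2]
    simp
  rw [hsgn] at h1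
  refine ⟨g, (mem_TP _ _).2 hgT, ?_, ?_⟩
  · intro s
    have h5 : (s.1 : ℕ) = exN (Equiv.swap i j) (((g s).1 : Fin r) : ℕ) := hgc s
    rw [exN_val] at h5
    rw [Fin.ext h5, Equiv.swap_apply_self]
  · have h2 := (filS ℚ (aT a (tyW (clsW w))) (tT θ (tyW (clsW w))) (lev w - 1)).smul_mem
      (sg g) h1
    have h3 : sg g • (rename g (PW w) - C (sg g) * PW w) = sg g • rename g (PW w) - PW w := by
      rw [smul_sub, ← smul_eq_C_mul, smul_smul, sg_mul_self, one_smul]
    rw [h3] at h2
    exact h2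

/-- **The stabiliser of a good word.** -/
theorem stab (hs : SymD a θ) (w : Fin r → Ltr L) (hgood : Good w) :
    ∀ π : Equiv.Perm (Fin r), π ∈ HG w → ∀ g : Equiv.Perm (SW (clsW w)),
      g ∈ TP (tyW (clsW w)) → (∀ s, (g s).1 = π s.1) →
      Fil ℚ (aT a (tyW (clsW w))) (tT θ (tyW (clsW w))) (lev w - 1)
        (sg g • rename g (PW w) - PW w) := by
  refine HG_induction w _ ?_ ?_
  · intro g hT hg
    rw [rename_fibre_PW w g hg hT, smul_smul, sg_mul_self, one_smul, sub_self]
    exact (filS ℚ (aT a (tyW (clsW w))) (tT θ (tyW (clsW w))) (lev w - 1)).zero_mem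
  · intro i j σ hij hne hσ ih g hT hg
    have hodd : ¬ Odd' a (cls (w i)) := hgood i j hne hij
    obtain ⟨g0, hT0, hg0, hF0⟩ : ∃ g0 : Equiv.Perm (SW (clsW w)), g0 ∈ TP (tyW (clsW w)) ∧
        (∀ s, (g0 s).1 = Equiv.swap i j s.1) ∧
        Fil ℚ (aT a (tyW (clsW w))) (tT θ (tyW (clsW w))) (lev w - 1)
          (sg g0 • rename g0 (PW w) - PW w) := by
      rcases lt_or_gt_of_ne hne with h | h
      · exact fil_swap hs w h hij hodd
      · rw [Equiv.swap_comm]
        exact fil_swap hs w h hij.symm (hij ▸ hodd)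
    have hinv : ∀ s, (g0⁻¹ s).1 = Equiv.swap i j s.1 := by
      intro s
      have h1 := hg0 (g0⁻¹ s)
      rw [show g0 (g0⁻¹ s) = s from Equiv.apply_symm_apply g0 s] at h1
      rw [h1, Equiv.swap_apply_self]
    have h2 := ih (g0⁻¹ * g) (mul_mem_TP (inv_mem_TP hT0) hT) (fun s => by
      rw [Equiv.Perm.mul_apply, hinv, hg, Equiv.Perm.mul_apply, Equiv.swap_apply_self])
    have h3 := (rename_fil (a := a) (θ := θ) (tb_of_mem_TP hT0) (lev w - 1) _).2 h2
    have h4 := (filS ℚ (aT a (tyW (clsW w))) (tT θ (tyW (clsW w))) (lev w - 1)).smul_mem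
      (sg g0) h3
    have h5 := (filS ℚ (aT a (tyW (clsW w))) (tT θ (tyW (clsW w))) (lev w - 1)).add_mem h4 hF0
    have h6 : rename g0 (rename (g0⁻¹ * g : Equiv.Perm (SW (clsW w))) (PW w)) =
        rename g (PW w) := by
      rw [rename_rename]
      congr 2
      funext s
      simp
    have h7 : sg (g0⁻¹ * g) = sg g0 * sg g := by rw [sg_mul, sg_inv]
    have h8 : sg g0 • rename g0 (sg (g0⁻¹ * g) • rename (g0⁻¹ * g : Equiv.Perm (SW (clsW w)))
        (PW w) - PW w) + (sg g0 • rename g0 (PW w) - PW w) =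
        sg g • rename g (PW w) - PW w := by
      rw [map_sub, map_smul, h6, h7, smul_sub, smul_smul, ← mul_assoc, sg_mul_self, one_mul]
      abel
    rw [h8] at h5
    exact h5

end

end Vale.Agent.P066.Lab.LSW.V828
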