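import Vale.Agent.P066.Lab.LSW.Defs
import Vale.Agent.P066.Lab.H678.Fin
import Vale.Agent.P066.Lab.H678.Homog

/-!
# [W0] Letters exist: homogeneous bases of the alternating part of `V_d`, finiteness by FIN
-/

set_option autoImplicit false

open Finset MvPolynomial

namespace Vale.Agent.P066.Lab.LSW

open Vale.Agent.P066.Lab Vale.Agent.P066.Lab.H678 Vale.Agent.P066.Lab.Fin678
open Vale.Agent.P066.Theta.H422 (Alt TP mem_TP mem_Alt)

noncomputable section

section General

variable {S : Type} [Fintype S] [DecidableEq S] {k : Type} [Field k] {a : S → S → ℕ} {θ : S → ℤ}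
variable {ι : Type} [Fintype ι] [DecidableEq ι] {ty : S → ι}

theorem Alt_hc {f : MvPolynomial S k} (hf : f ∈ Alt k ty) (m : ℕ) :
    homogeneousComponent m f ∈ Alt k ty := by
  rw [mem_Alt] at hf ⊢
  intro σ hσ
  rw [rename_homogeneousComponent, hf σ hσ, map_smul]

theorem Gc_const_of_Fil [Nonempty S] {f : MvPolynomial S k} (hf : Fil k a θ 1 f) :
    Gc k a θ (fun _ => 0) f := by
  intro m hm _
  have h := hf m hm
  rw [nb_const, CC_const]
  exact h

/-- a homogeneous basis of the alternating part of `V_S` modulo `J0` -/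
theorem exists_hom_basis [CharZero k] [Nonempty S] (hθ : wS θ (univ : Finset S) = 0) :
    ∃ (b : Set (MvPolynomial S k ⧸ J0 k a θ univ)) (v : b → MvPolynomial S k) (dg : b → ℕ),
      Finite b ∧ (∀ y, v y ∈ Alt k ty) ∧ (∀ y, (v y).IsHomogeneous (dg y)) ∧
      (∀ y, Fil k a θ 1 (v y)) ∧
      (LinearIndependent k fun y => Ideal.Quotient.mk (J0 k a θ univ) (v y)) ∧
      ∀ f ∈ Alt k ty, Fil k a θ 1 f →
        ∃ g ∈ Submodule.span k (Set.range v), f - g ∈ J0 k a θ univ := by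
  classical
  obtain ⟨D0, hD0⟩ := fin_V (k := k) (a := a) hθ
  let q : MvPolynomial S k →ₗ[k] (MvPolynomial S k ⧸ J0 k a θ univ) :=
    (Ideal.Quotient.mkₐ k (J0 k a θ univ)).toLinearMap
  have hq : ∀ f, q f = Ideal.Quotient.mk (J0 k a θ univ) f := fun f => rfl
  let t : Set (MvPolynomial S k ⧸ J0 k a θ univ) :=
    {x | ∃ (m : ℕ) (f : MvPolynomial S k), f ∈ Alt k ty ∧ f.IsHomogeneous m ∧ Fil k a θ 1 f ∧
      q f = x}
  obtain ⟨b, hbt, hspan, hb⟩ := exists_linearIndependent k t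
  have hlift : ∀ y : b, ∃ (f : MvPolynomial S k) (m : ℕ), f ∈ Alt k ty ∧ f.IsHomogeneous m ∧
      Fil k a θ 1 f ∧ q f = (y : MvPolynomial S k ⧸ J0 k a θ univ) := by
    intro y
    obtain ⟨m, f, h1, h2, h3, h4⟩ := hbt y.2
    exact ⟨f, m, h1, h2, h3, h4⟩
  choose v dg hv1 hv2 hv3 hv4 using hlift
  have hind : LinearIndependent k fun y => Ideal.Quotient.mk (J0 k a θ univ) (v y) := by
    have : (fun y => Ideal.Quotient.mk (J0 k a θ univ) (v y)) =
        fun y : b => (y : MvPolynomial S k ⧸ J0 k a θ univ) := by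
      funext y
      exact hv4 y
    rw [this]
    exact hb
  refine ⟨b, v, dg, ?_, hv1, hv2, hv3, hind, ?_⟩
  · -- finiteness
    have hdg : ∀ y : b, dg y < D0 := by
      intro y
      by_contra hcon
      push Not at hcon
      have h1 : v y ∈ JC k a θ (fun _ => 0) :=
        hD0 (dg y) (v y) hcon (hv2 y) (Gc_const_of_Fil (hv3 y))
      rw [JC_const] at h1
      have h2 : (y : MvPolynomial S k ⧸ J0 k a θ univ) = 0 := by
        rw [← hv4 y, hq]
        exact Ideal.Quotient.eq_zero_iff_mem.2 h1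
      exact hb.ne_zero y h2
    let W : Submodule k (MvPolynomial S k ⧸ J0 k a θ univ) :=
      (restrictTotalDegree S k D0).map q
    have hmem : ∀ y : b, (y : MvPolynomial S k ⧸ J0 k a θ univ) ∈ W := by
      intro y
      refine ⟨v y, ?_, hv4 y⟩
      rw [SetLike.mem_coe, mem_restrictTotalDegree]
      exact (hv2 y).totalDegree_le.trans (hdg y).le
    have hli : LinearIndependent k (fun y : b => (⟨y, hmem y⟩ : W)) := by
      apply LinearIndependent.of_comp W.subtype
      exact hb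
    exact hli.finite_of_isNoetherian
  · intro f hf hfil
    have h1 : ∀ g : MvPolynomial S k, q g ∈ Submodule.span k b →
        ∃ g' ∈ Submodule.span k (Set.range v), g - g' ∈ J0 k a θ univ := by
      intro g hg
      have himg : b = q '' Set.range v := by
        ext x
        constructor
        · intro hx
          exact ⟨v ⟨x, hx⟩, ⟨⟨x, hx⟩, rfl⟩, hv4 ⟨x, hx⟩⟩
        · rintro ⟨_, ⟨y, rfl⟩, rfl⟩
          rw [hv4 y]
          exact y.2
      rw [himg, ← Submodule.map_span] at hg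
      obtain ⟨g', hg', hgg⟩ := hg
      refine ⟨g', hg', ?_⟩
      rw [← Ideal.Quotient.eq]
      exact hgg.symm
    apply h1
    rw [hspan, ← sum_homogeneousComponent f, map_sum]
    refine Submodule.sum_mem _ fun m _ => Submodule.subset_span ?_
    exact ⟨m, _, Alt_hc hf m, homogeneousComponent_isHomogeneous m f, Fil.hc hfil m, rfl⟩

end General

theorem wS_univ_Pt {n : ℕ} (θ : Fin n → ℤ) (d : Fin n →₀ ℕ) :
    wS (θP θ d) (univ : Finset (Pt d)) = Theta.wt θ d := by
  unfold wS θP Theta.wt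
  rw [Fintype.sum_sigma]
  refine Finset.sum_congr rfl fun i _ => ?_
  dsimp only
  rw [Finset.sum_const, Finset.card_univ, Fintype.card_fin, nsmul_eq_mul]

theorem nonempty_Pt {n : ℕ} {d : Fin n →₀ ℕ} (hd : d ≠ 0) : Nonempty (Pt d) := by
  obtain ⟨i, hi⟩ := Finsupp.ne_iff.1 hd
  rw [Finsupp.coe_zero, Pi.zero_apply] at hi
  exact ⟨⟨i, ⟨0, Nat.pos_of_ne_zero hi⟩⟩⟩

theorem w0 : W0 := by
  classical
  intro n a θ _
  have key : ∀ d : Fin n →₀ ℕ, d ≠ 0 ∧ Theta.wt θ d = 0 →
      ∃ (b : Set (MvPolynomial (Pt d) ℚ ⧸ J0 ℚ (aP a d) (θP θ d) univ))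
        (v : b → MvPolynomial (Pt d) ℚ) (dg : b → ℕ),
      Finite b ∧ (∀ y, v y ∈ Alt ℚ (Sigma.fst : Pt d → Fin n)) ∧
      (∀ y, (v y).IsHomogeneous (dg y)) ∧
      (∀ y, Fil ℚ (aP a d) (θP θ d) 1 (v y)) ∧
      (LinearIndependent ℚ fun y => Ideal.Quotient.mk (J0 ℚ (aP a d) (θP θ d) univ) (v y)) ∧
      ∀ f ∈ Alt ℚ (Sigma.fst : Pt d → Fin n), Fil ℚ (aP a d) (θP θ d) 1 f →
        ∃ g ∈ Submodule.span ℚ (Set.range v), f - g ∈ J0 ℚ (aP a d) (θP θ d) univ := by
    intro d hd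
    have := nonempty_Pt hd.1
    exact exists_hom_basis (by rw [wS_univ_Pt]; exact hd.2)
  choose b v dg h1 h2 h3 h4 h5 h6 using key
  refine ⟨{
    Y := fun d => Σ h : PLift (d ≠ 0 ∧ Theta.wt θ d = 0), b d h.down
    v := fun {d} y => v d y.1.down y.2
    dg := fun {d} y => dg d y.1.down y.2
    fin := ?_
    ne := fun d y => y.1.down.1
    wt := fun d y => y.1.down.2
    alt := fun d y => h2 d y.1.down y.2
    hom := fun d y => h3 d y.1.down y.2
    fil := fun d y => h4 d y.1.down y.2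
    ind := ?_
    span := ?_ }⟩
  · intro d
    have : ∀ h : PLift (d ≠ 0 ∧ Theta.wt θ d = 0), Finite (b d h.down) := fun h => h1 d h.down
    infer_instance
  · intro d
    by_cases hd : d ≠ 0 ∧ Theta.wt θ d = 0
    · have := h5 d hd
      let f : (Σ h : PLift (d ≠ 0 ∧ Theta.wt θ d = 0), b d h.down) → b d hd := fun y => y.2
      have hf : Function.Injective f := by
        rintro ⟨⟨h⟩, y⟩ ⟨⟨h'⟩, y'⟩ hyy
        have : y = y' := hyy
        rw [this]
      exact this.comp f hf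
    · have : IsEmpty (Σ h : PLift (d ≠ 0 ∧ Theta.wt θ d = 0), b d h.down) :=
        ⟨fun y => hd y.1.down⟩
      exact linearIndependent_empty_type
  · intro d hd hw f hf hfil
    obtain ⟨g, hg, hfg⟩ := h6 d ⟨hd, hw⟩ f hf hfil
    refine ⟨g, Submodule.span_mono ?_ hg, hfg⟩
    rintro _ ⟨y, rfl⟩
    exact ⟨⟨⟨⟨hd, hw⟩⟩, y⟩, rfl⟩

end

end Vale.Agent.P066.Lab.LSW

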